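import Vale.Agent.P167.H922.LbQuad
import Vale.Agent.P167.N.Kit

/-!
# P167, `0 < q < 4`, [GEO]: the arm of a set `Z` near `t` at a flat free side and the wired side

`arm_lbZ_of`: the row GEO:LB from the crossings of rectangles (`VRS`) and the arms next to a free
boundary (`ArmShp`).
-/

set_option autoImplicit false

namespace Vale.Agent.P167.H922

open Finset Filter Topology Vale.Agent.P167 Vale.Agent.P167.FK Vale.Agent.P167.H262
  Vale.Agent.P167.H632 Vale.Agent.P167.H871 Vale.Agent.P167.H192.TA Vale.Agent.P167.N.NET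
open Vale.Agent.P167.H364 (HBt ArmT recT xiT opn good_opn CoZ)
open Vale.Agent.P167.H635 (ArmAt ArmShp)
open Vale.Agent.P145.FB (PStep PConn)
open Relation (ReflTransGen)

variable {Q : ℝ} {t : ℤ × ℤ} {D Z : Finset (ℤ × ℤ)} {η : Cfg}

/-! ### A frozen open set -/

/-- All squares of `Z` are open. -/
def ZO (Z : Finset (ℤ × ℤ)) : Set Cfg := {ω | ∀ v ∈ Z, ω v = true}

theorem frz (hQ : 0 < Q) (hη : Good η) (G : Cfg → ℝ) :
    Ex Q D η (fun ω => (ZO Z).indicator 1 ω * G ω) =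
      Pr Q D η (ZO Z) * Ex Q (D \ Z) (opn Z η) G := by
  have hI : FKA.Ind (D \ Z) ((ZO Z).indicator (1 : Cfg → ℝ)) := by
    intro ω ω' h
    have h1 : ∀ v ∈ Z, ω v = ω' v := fun v hv => h v fun h' => (mem_sdiff.1 h').2 hv
    by_cases h2 : ω ∈ ZO Z
    · have h3 : ω' ∈ ZO Z := fun v hv => by rw [← h1 v hv]; exact h2 v hv
      rw [Set.indicator_of_mem h2, Set.indicator_of_mem h3]
      rfl
    · have h3 : ω' ∉ ZO Z := fun h3 => h2 fun v hv => by rw [h1 v hv]; exact h3 v hv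
      rw [Set.indicator_of_notMem h2, Set.indicator_of_notMem h3]
  rw [FKA.markov H259.f_markov hQ (A := D \ Z) sdiff_subset hη hI, mul_comm, Pr,
    ← FKA.Ex_mul_left]
  refine FKA.Ex_congr fun S _ => ?_
  by_cases h2 : cf D η S ∈ ZO Z
  · rw [mul_comm]
    congr 1
    refine H259.Ex_out (fun v hv => ?_) G
    by_cases hz : v ∈ Z
    · rw [h2 v hz, opn_in hz]
    · rw [opn_out hz, FKA.cf_out]
      exact fun h => hv (mem_sdiff.2 ⟨h, hz⟩)
  · rw [Set.indicator_of_notMem h2, zero_mul, mul_zero]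

theorem zo_pos (hQ : 0 < Q) (hZ : Z ⊆ D) : 0 < Pr Q D η (ZO Z) := by
  unfold Pr Ex
  refine div_pos ?_ (FKA.Zq_pos hQ D η)
  refine lt_of_lt_of_le ?_ (Finset.single_le_sum (f := fun S => Q ^ LD D (cf D η S) *
    (ZO Z).indicator 1 (cf D η S)) (fun S _ => mul_nonneg (pow_pos hQ _).le
      (FKA.ind_nonneg _ _)) (mem_powerset.2 (Subset.refl D)))
  have h : cf D η D ∈ ZO Z := fun v hv => by
    rw [H519.cf_in (hZ hv)]
    exact decide_eq_true (hZ hv)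
  rw [Set.indicator_of_mem h]
  exact mul_pos (pow_pos hQ _) one_pos

/-- `net1` with a frozen open set away from the tube. -/
theorem net1_Z (hQ : 0 < Q) (hQ1 : Q ≤ 1) (hη : Good η) {T G : Finset Pt} (hZD : Z ⊆ D)
    (hTZ : ∀ v ∈ T, v ∉ Z) (hT : T ⊆ D) (hGD : G ⊆ D)
    {A₁ A₃ S₂ S₄ A B : Set Pt} (H : Quad true ↑G A₁ A₃ S₂ S₄) (hG : Fan true ↑G)
    (hA : A ⊆ Bd true T) (hAG : Beg true ↑G S₂ A) (hTG : Exi true ↑G S₄ ↑T) (hB : B ⊆ Bd true T)
    (hBG : ∀ z ∈ B, z ∈ Vc true ↑G → Nx true ↑G S₄ z) :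
    VT Q true T A B * Pr Q (D \ Z) (opn Z η) (Jn true ↑G A₁ A₃) ≤
      Pr Q (D \ Z) (opn Z η) (HK1 true ↑G ↑T A₁ A₃ B) := by
  have h := net1 (e := true) hQ hQ1 hη hT hGD H hG hA hAG hTG hB hBG
    (F := (ZO Z).indicator 1) (fun ω => FKA.ind_nonneg _ _) (fun ω ω' h => by
      have h1 : ∀ v ∈ Z, ω' v = ω v := fun v hv => h v fun h' => hTZ v (mem_sdiff.1 h').1 hv
      by_cases h2 : ω ∈ ZO Z
      · have h3 : ω' ∈ ZO Z := fun v hv => by rw [h1 v hv]; exact h2 v hv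
        rw [Set.indicator_of_mem h2, Set.indicator_of_mem h3]
        rfl
      · have h3 : ω' ∉ ZO Z := fun h3 => h2 fun v hv => by rw [← h1 v hv]; exact h3 v hv
        rw [Set.indicator_of_notMem h2, Set.indicator_of_notMem h3])
  rw [frz hQ hη, frz hQ hη] at h
  have hp : 0 < Pr Q D η (ZO Z) := zo_pos hQ hZD
  have h' : Pr Q D η (ZO Z) * (VT Q true T A B * Pr Q (D \ Z) (opn Z η) (Jn true ↑G A₁ A₃)) ≤
      Pr Q D η (ZO Z) * Pr Q (D \ Z) (opn Z η) (HK1 true ↑G ↑T A₁ A₃ B) := by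
    unfold Pr at h ⊢
    linarith
  exact le_of_mul_le_mul_left h' hp

/-! ### The wired row -/

theorem zig {ω : Cfg} {b : ℤ × ℤ} {r : ℤ} (hop : ∀ x : ℤ, b.1 ≤ x → x < b.1 + r →
    ω (x, b.2 - 1) = true) (k : ℕ) (hk : 2 * (k : ℤ) ≤ r) : PC ω b (b.1 + 2 * k, b.2) := by
  induction k with
  | zero =>
    have : (b.1 + 2 * ((0 : ℕ) : ℤ), b.2) = b := by ext <;> simp
    rw [this]
    exact ReflTransGen.refl
  | succ k ih =>
    push_cast at hk
    have h1 := ih (by omega)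
    refine h1.trans ?_
    refine ReflTransGen.trans (b := (b.1 + 2 * k + 1, b.2 - 1)) (ReflTransGen.single ⟨?_, ?_, ?_⟩)
      (ReflTransGen.single ⟨?_, ?_, ?_⟩)
    · left; rfl
    · right; rfl
    · have e : (min (b.1 + 2 * (k : ℤ)) (b.1 + 2 * k + 1), min b.2 (b.2 - 1)) =
        (b.1 + 2 * (k : ℤ), b.2 - 1) := by
        rw [min_eq_left (by omega), min_eq_right (by omega)]
      show ω (min (b.1 + 2 * (k : ℤ)) (b.1 + 2 * k + 1), min b.2 (b.2 - 1)) = true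
      rw [e]
      exact hop _ (by omega) (by omega)
    · left; push_cast; ring
    · left; simp
    · have e : (min (b.1 + 2 * (k : ℤ) + 1) (b.1 + 2 * ((k + 1 : ℕ) : ℤ)), min (b.2 - 1) b.2) =
        (b.1 + 2 * (k : ℤ) + 1, b.2 - 1) := by
        push_cast
        rw [min_eq_left (by omega), min_eq_left (by omega)]
      show ω (min (b.1 + 2 * (k : ℤ) + 1) (b.1 + 2 * ((k + 1 : ℕ) : ℤ)), min (b.2 - 1) b.2) = true
      rw [e]
      exact hop _ (by omega) (by omega)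

theorem pw_PC {ω : Cfg} {F : Set Pt} {u v : Pt} (h : Pw (cs true ω ∩ F) u v) : PC ω u v :=
  ReflTransGen.mono (fun _ _ hab => ⟨hab.1, hab.2.1, hab.2.2.1⟩) _ _ h

/-- The tube reaches the wired row. -/
theorem hk_PC {ω : Cfg} {m : ℕ} (hm : 0 < m) (ht : Even (t.1 + t.2)) {l r w : ℤ} (hl : Even l)
    (hw : w ≤ r) (hop : ∀ x : ℤ, t.1 + l ≤ x → x < t.1 + l + r → ω (x, t.2 - 1) = true)
    {G T : Set Pt} {A₃ : Set Pt}
    (h : ω ∈ HK1 true G T (arcQ true (pq t m) 0 0) A₃ (Hs true t.2 (t.1 + l) (t.1 + l + w))) :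
    PC ω t (t.1 + l, t.2) := by
  obtain ⟨a, ⟨u, hu, -, -, h1, -⟩, z, ⟨z1, z2, z3, z4⟩, h2⟩ := h
  have hu' := arc_a hm hu
  subst hu'
  have h3 : PC ω u z := (pw_PC h1).trans (pw_PC h2)
  obtain ⟨k, hk⟩ : ∃ k : ℕ, z = (u.1 + l + 2 * k, u.2) := by
    have h4 : (z.1 + z.2) % 2 = 0 := by simpa [pr] using z4
    rw [Int.even_iff] at ht hl
    obtain ⟨k, hk⟩ := Int.eq_ofNat_of_zero_le (a := (z.1 - (u.1 + l)) / 2) (by omega)
    exact ⟨k, Prod.ext (by simp only; omega) z1⟩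
  have h5 := zig (ω := ω) (b := (u.1 + l, u.2)) (r := r) hop k (by
    rw [hk] at z3
    simp only at z3
    omega)
  rw [hk] at h3
  exact h3.trans (H816.PC_symm h5)

/-! ### The two bounds -/

theorem mem_TR {x y l u : ℤ} {v : Pt} : v ∈ TR x y l u ↔
    (x - 6 * u ≤ v.1 ∧ v.1 < x - 4 * u ∧ y ≤ v.2 ∧ v.2 < y + 7 * u) ∨
    (x - 6 * u ≤ v.1 ∧ v.1 < x + 6 * u ∧ y + 5 * u ≤ v.2 ∧ v.2 < y + 7 * u) ∨
    (x + 4 * u ≤ v.1 ∧ v.1 < x + 6 * u ∧ y + u ≤ v.2 ∧ v.2 < y + 7 * u) ∨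
    (x + 4 * u ≤ v.1 ∧ v.1 < x + l + 8 * u ∧ y + u ≤ v.2 ∧ v.2 < y + 3 * u) ∨
    (x + l ≤ v.1 ∧ v.1 < x + l + 8 * u ∧ y ≤ v.2 ∧ v.2 < y + 3 * u) := by
  rw [TR, mem_union, mem_union, mem_union, mem_union, mem_Rsq, mem_Rsq, mem_Rsq, mem_Rsq, mem_Rsq]

theorem mem_TL {x y l u : ℤ} {v : Pt} : v ∈ TL x y l u ↔
    (x + 4 * u ≤ v.1 ∧ v.1 < x + 6 * u ∧ y ≤ v.2 ∧ v.2 < y + 7 * u) ∨
    (x - 6 * u ≤ v.1 ∧ v.1 < x + 6 * u ∧ y + 5 * u ≤ v.2 ∧ v.2 < y + 7 * u) ∨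
    (x - 6 * u ≤ v.1 ∧ v.1 < x - 4 * u ∧ y + u ≤ v.2 ∧ v.2 < y + 7 * u) ∨
    (x - 12 * u ≤ v.1 ∧ v.1 < x - 4 * u ∧ y + u ≤ v.2 ∧ v.2 < y + 3 * u) ∨
    (x - 12 * u ≤ v.1 ∧ v.1 < x - 10 * u ∧ y + u ≤ v.2 ∧ v.2 < y + 12 * u) ∨
    (x - 12 * u ≤ v.1 ∧ v.1 < x + l + 8 * u ∧ y + 10 * u ≤ v.2 ∧ v.2 < y + 12 * u) ∨
    (x + l ≤ v.1 ∧ v.1 < x + l + 8 * u ∧ y ≤ v.2 ∧ v.2 < y + 12 * u) := by
  rw [TL, mem_union, mem_union, mem_union, mem_union, mem_union, mem_union, mem_Rsq, mem_Rsq,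
    mem_Rsq, mem_Rsq, mem_Rsq, mem_Rsq, mem_Rsq]

theorem mem_recT {l r : ℤ} {v : Pt} : v ∈ recT t l r ↔ t.1 - r ≤ v.1 ∧ v.1 < t.1 + l + r ∧
    t.2 ≤ v.2 ∧ v.2 < t.2 + r := by
  simp only [recT, Finset.mem_product, Finset.mem_Ico]
  tauto

theorem vc_hb {y : Pt} {m : ℤ} (h : y ∈ Vc true ↑(HBt t m)) : t.1 - m ≤ y.1 ∧ y.1 ≤ t.1 + m ∧
    t.2 ≤ y.2 ∧ y.2 ≤ t.2 + m ∧ (y.1 + y.2) % 2 = 0 := by
  obtain ⟨v, hv, h1, h2, h3⟩ := h
  have h4 := mem_HBt.1 (mem_coe.1 hv)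
  simp only [pr, if_true] at h3
  refine ⟨?_, ?_, ?_, ?_, h3⟩ <;> omega

theorem cor_at {c : Bool} {v1 v2 x1 x2 : ℤ} (h1 : x1 = v1 ∨ x1 = v1 + 1) (h2 : x2 = v2 ∨ x2 = v2 + 1)
    (h3 : (x1 + x2) % 2 = pr c) : N.NET.Cor c (v1, v2) (x1, x2) := ⟨h1, h2, h3⟩

theorem pr_t : pr true = 0 := rfl

theorem pr_f : pr (!true) = 1 := rfl

/-- The tube on the right. -/
theorem reachR (hQ : 0 < Q) (hQ1 : Q ≤ 1) (hη : Good η) {u : ℕ} (hu : 2 ≤ u) {l r : ℤ}
    (h8 : 12 * (u : ℤ) ≤ r) (hl : 20 * (u : ℤ) ≤ l) (hZD : Z ⊆ HBt t (u : ℤ)) :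
    VT Q true (TR t.1 t.2 l u) (Hs true t.2 (t.1 - 6 * u) (t.1 - 4 * u))
        (Hs true t.2 (t.1 + l) (t.1 + l + 8 * u)) *
      Pr Q (recT t l r \ Z) (opn Z η) (Jn true ↑(HBt t (8 * u : ℕ))
        (arcQ true (pq t (8 * u)) 0 0) (arcQ true (pq t (8 * u)) (8 * u + 4 * u) (5 * (8 * u)))) ≤
    Pr Q (recT t l r \ Z) (opn Z η) (HK1 true ↑(HBt t (8 * u : ℕ)) ↑(TR t.1 t.2 l u)
      (arcQ true (pq t (8 * u)) 0 0) (arcQ true (pq t (8 * u)) (8 * u + 4 * u) (5 * (8 * u)))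
      (Hs true t.2 (t.1 + l) (t.1 + l + 8 * u))) := by
  have hm : 0 < 8 * u := by omega
  refine net1_Z hQ hQ1 hη (fun v hv => ?_) (fun v hv hz => ?_) (fun v hv => ?_) (fun v hv => ?_)
    (quadR (t := t) (h := 4 * u) hm (by omega)) (fan_poly (pq_poly (t := t) hm) (pq_encl hm) true)
    (bd_bot fun v hv => ?_) (fun a ha => ?_) (fun s hs hsG y hy hyG => ?_)
    (bd_bot fun v hv => ?_) (fun z hz hzG => ?_)
  · have := mem_HBt.1 (hZD hv)
    rw [mem_recT]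
    omega
  · have := mem_HBt.1 (hZD hz)
    rw [mem_TR] at hv
    omega
  · rw [mem_TR] at hv
    rw [mem_recT]
    omega
  · have := mem_HBt.1 hv
    push_cast at this
    rw [mem_recT]
    omega
  · rw [mem_TR] at hv
    omega
  · obtain ⟨a1, a2, a3, a4⟩ := ha
    simp only [pr, if_true] at a4
    refine ⟨a, ?_, ?_, (a.1 + 1, a.2), ?_, ?_⟩
    · rw [mem_coe, mem_HBt]
      (push_cast; omega)
    · exact cor_at (by omega) (by omega) (by rw [pr_t]; omega)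
    · refine arc_bl hm ?_ le_rfl ?_ ?_ ?_
      · simp only [pr, Bool.false_eq_true, if_false]; omega
      · (push_cast; omega)
      · (push_cast; omega)
      · exact a1
    · exact cor_at (by omega) (by omega) (by rw [pr_f]; omega)
  · obtain ⟨y1, y2, y3, y4, y5⟩ := vc_hb hyG
    push_cast at y1 y2 y3 y4
    rw [mem_coe, mem_TR] at hs
    rw [mem_coe, mem_HBt] at hsG
    push_cast at hsG
    obtain ⟨c1, c2, c3⟩ := hy
    have hy1 : y.1 = t.1 + 8 * u := by omega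
    have hy2 : t.2 + u ≤ y.2 ∧ y.2 ≤ t.2 + 3 * u := by omega
    refine ⟨(y.1 - 1, y.2), ?_, ?_, (y.1, y.2 + 1), ?_, ?_⟩
    · rw [mem_coe, mem_HBt]
      (push_cast; omega)
    · exact cor_at (by omega) (by omega) (by rw [pr_t]; omega)
    · refine arc_r hm ?_ ?_ ?_ ?_ ?_ ?_
      · simp only [pr, Bool.false_eq_true, if_false]; omega
      · (push_cast; omega)
      · (push_cast; omega)
      · (push_cast; omega)
      · (push_cast; omega)
      · (push_cast; omega)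
    · exact cor_at (by omega) (by omega) (by rw [pr_f]; omega)
  · rw [mem_TR] at hv
    omega
  · obtain ⟨y1, y2, y3, y4, y5⟩ := vc_hb hzG
    push_cast at y1 y2 y3 y4
    obtain ⟨z1, z2, z3, z4⟩ := hz
    omega

/-- Sites of the lower part of the left side. -/
theorem arc_lb {m : ℕ} (hm : 0 < m) {e : Bool} {x : ℤ × ℤ} (hp : (x.1 + x.2) % 2 = pr e) {i : ℕ}
    (h1 : x.1 = t.1 - m) (h2 : t.2 ≤ x.2) (h3 : x.2 ≤ t.2 + m) (h4 : (i : ℤ) ≤ 5 * m - (x.2 - t.2))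
    : x ∈ arcQ e (pq t m) i (0 + H947.Q.rN m m m) :=
  arc_l hm hp h1 h2 h3 h4 (by unfold H947.Q.rN; push_cast; omega)

/-- The tube around the left side. -/
theorem reachL (hQ : 0 < Q) (hQ1 : Q ≤ 1) (hη : Good η) {u : ℕ} (hu : 2 ≤ u) {l r : ℤ}
    (h8 : 12 * (u : ℤ) ≤ r) (hl : 20 * (u : ℤ) ≤ l) (hZD : Z ⊆ HBt t (u : ℤ)) :
    VT Q true (TL t.1 t.2 l u) (Hs true t.2 (t.1 + 4 * u) (t.1 + 6 * u))
        (Hs true t.2 (t.1 + l) (t.1 + l + 8 * u)) *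
      Pr Q (recT t l r \ Z) (opn Z η) (Jn true ↑(HBt t (8 * u : ℕ))
        (arcQ true (pq t (8 * u)) 0 0) (arcQ true (pq t (8 * u)) (8 * u) (5 * (8 * u) - 4 * u))) ≤
    Pr Q (recT t l r \ Z) (opn Z η) (HK1 true ↑(HBt t (8 * u : ℕ)) ↑(TL t.1 t.2 l u)
      (arcQ true (pq t (8 * u)) 0 0) (arcQ true (pq t (8 * u)) (8 * u) (5 * (8 * u) - 4 * u))
      (Hs true t.2 (t.1 + l) (t.1 + l + 8 * u))) := by
  have hm : 0 < 8 * u := by omega
  refine net1_Z hQ hQ1 hη (fun v hv => ?_) (fun v hv hz => ?_) (fun v hv => ?_) (fun v hv => ?_)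
    (quadL (t := t) (h := 4 * u) hm (by omega)) (fan_poly (pq_poly (t := t) hm) (pq_encl hm) true)
    (bd_bot fun v hv => ?_) (fun a ha => ?_) (fun s hs hsG y hy hyG => ?_)
    (bd_bot fun v hv => ?_) (fun z hz hzG => ?_)
  · have := mem_HBt.1 (hZD hv)
    rw [mem_recT]
    omega
  · have := mem_HBt.1 (hZD hz)
    rw [mem_TL] at hv
    omega
  · rw [mem_TL] at hv
    rw [mem_recT]
    omega
  · have := mem_HBt.1 hv
    push_cast at this
    rw [mem_recT]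
    omega
  · rw [mem_TL] at hv
    omega
  · obtain ⟨a1, a2, a3, a4⟩ := ha
    simp only [pr, if_true] at a4
    refine ⟨a, ?_, ?_, (a.1 + 1, a.2), ?_, ?_⟩
    · rw [mem_coe, mem_HBt]
      (push_cast; omega)
    · exact cor_at (by omega) (by omega) (by rw [pr_t]; omega)
    · refine arc_br hm ?_ ?_ ?_ ?_ ?_
      · simp only [pr, Bool.false_eq_true, if_false]; omega
      · (push_cast; omega)
      · (push_cast; omega)
      · (push_cast; omega)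
      · exact a1
    · exact cor_at (by omega) (by omega) (by rw [pr_f]; omega)
  · obtain ⟨y1, y2, y3, y4, y5⟩ := vc_hb hyG
    push_cast at y1 y2 y3 y4
    rw [mem_coe, mem_TL] at hs
    rw [mem_coe, mem_HBt] at hsG
    push_cast at hsG
    obtain ⟨c1, c2, c3⟩ := hy
    have hy1 : y.1 = t.1 - 8 * u := by omega
    have hy2 : t.2 + u ≤ y.2 ∧ y.2 ≤ t.2 + 3 * u := by omega
    refine ⟨y, ?_, ?_, (y.1, y.2 + 1), ?_, ?_⟩
    · rw [mem_coe, mem_HBt]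
      (push_cast; omega)
    · exact cor_at (by omega) (by omega) (by rw [pr_t]; omega)
    · refine arc_lb hm ?_ ?_ ?_ ?_ ?_
      · simp only [pr, Bool.false_eq_true, if_false]; omega
      · (push_cast; omega)
      · (push_cast; omega)
      · (push_cast; omega)
      · (push_cast; omega)
    · exact cor_at (by omega) (by omega) (by rw [pr_f]; omega)
  · rw [mem_TL] at hv
    omega
  · obtain ⟨y1, y2, y3, y4, y5⟩ := vc_hb hzG
    push_cast at y1 y2 y3 y4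
    obtain ⟨z1, z2, z3, z4⟩ := hz
    omega

/-! ### The event of the arm -/

theorem armT_mono {m r : ℤ} (hm : 1 ≤ m) (hmr : m ≤ r) : ArmT t r ⊆ ArmT t m := by
  rintro ω ⟨s, hs, hp⟩
  have key : ∀ y, ReflTransGen (PStep {v | v ∈ HBt t r ∧ ω v = true}) t y → ω ∈ ArmT t m ∨
      ((t.1 - m < y.1 ∧ y.1 < t.1 + m ∧ t.2 ≤ y.2 ∧ y.2 < t.2 + m) ∧
        ReflTransGen (PStep {v | v ∈ HBt t m ∧ ω v = true}) t y) := by
    intro y hy
    induction hy with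
    | refl => exact Or.inr ⟨by omega, ReflTransGen.refl⟩
    | @tail y z _ hyz ih =>
      rcases ih with ih | ⟨ih1, ih2⟩
      · exact Or.inl ih
      · obtain ⟨h1, h2, h3, h4⟩ := hyz
        have h5 := mem_HBt.1 h3
        dsimp only at h5
        have h6 : (min y.1 z.1, min y.2 z.2) ∈ HBt t m := by
          rw [mem_HBt]
          dsimp only
          omega
        have h7 : ReflTransGen (PStep {v | v ∈ HBt t m ∧ ω v = true}) t z :=
          ih2.tail ⟨h1, h2, h6, h4⟩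
        by_cases h8 : t.1 - m < z.1 ∧ z.1 < t.1 + m ∧ t.2 ≤ z.2 ∧ z.2 < t.2 + m
        · exact Or.inr ⟨h8, h7⟩
        · refine Or.inl ⟨z, ?_, h7⟩
          rw [mem_HBt] at h6
          dsimp only at h6
          omega
  rcases key s hp with h | ⟨h, -⟩
  · exact h
  · exfalso
    omega

theorem armT_congr {m : ℤ} {ω ω' : Cfg} (h : ∀ v ∈ HBt t m, ω v = ω' v) (hω : ω ∈ ArmT t m) :
    ω' ∈ ArmT t m := by
  obtain ⟨s, hs, hp⟩ := hω
  refine ⟨s, hs, ReflTransGen.mono (fun a b hab => ⟨hab.1, hab.2.1, hab.2.2.1, ?_⟩) _ _ hp⟩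
  rw [← h _ hab.2.2.1]
  exact hab.2.2.2

/-! ### Constants -/

theorem exists_K {α C : ℝ} (hα : 0 < α) : ∃ K : ℕ, 2 ≤ K ∧ ∀ r R : ℤ, 1 ≤ r → K * r ≤ R →
    C * ((r : ℝ) / R) ^ α ≤ 1 / 2 := by
  have h3 : Tendsto (fun x : ℝ => C * (1 / x) ^ α) atTop (𝓝 (C * 0)) := by
    refine Tendsto.const_mul C ?_
    have := tendsto_rpow_neg_atTop hα
    refine this.congr' ?_
    filter_upwards [eventually_gt_atTop 0] with x hx
    rw [Real.rpow_neg hx.le, one_div, Real.inv_rpow hx.le]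
  rw [mul_zero] at h3
  obtain ⟨x0, hx0⟩ := eventually_atTop.1 (h3.eventually (ge_mem_nhds (show (0 : ℝ) < 1 / 2 by
    norm_num)))
  obtain ⟨n, hn⟩ := exists_nat_ge x0
  refine ⟨max 2 n, le_max_left _ _, fun r R hr hR => ?_⟩
  have hr0 : (0 : ℝ) < r := by exact_mod_cast (by omega : 0 < r)
  have h4 := hx0 (R / r) (by
    rw [le_div_iff₀ hr0]
    have h5 : ((n : ℤ) : ℝ) * r ≤ R := by
      have h6 : (n : ℤ) * r ≤ R := by
        have h7 : (n : ℤ) ≤ (max 2 n : ℕ) := by exact_mod_cast le_max_right 2 n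
        nlinarith
      exact_mod_cast h6
    push_cast at h5
    nlinarith)
  rwa [one_div_div] at h4

/-- **[LB]**, from the crossings of rectangles and the arms next to a free boundary. -/
theorem arm_lbZ_of (hQ : N.Kit Q) (hV : VRS Q)
    (hA : ∃ α C : ℝ, 0 < α ∧ 0 < C ∧ ArmShp Q α C) (κ : ℤ) : ∃ c : ℝ, 0 < c ∧ ∃ L r₀ : ℤ,
    1 ≤ L ∧ 1 ≤ r₀ ∧ ∀ (t : ℤ × ℤ) (l r ρ : ℤ) (Z : Finset (ℤ × ℤ)), Even (t.1 + t.2) →
      Even l → r₀ ≤ r → 8 * r ≤ l → l ≤ κ * r → Z ⊆ BR.hbox t ρ → L * ρ ≤ r → CoZ t Z →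
      ∀ ξ : Cfg, Good ξ → (∀ x : ℤ, t.1 - r - 1 ≤ x → x ≤ t.1 + r → ξ (x, t.2 - 1) = false) →
        c * Pr Q (HBt t r \ Z) (opn Z ξ) (ArmT t r) ≤
          Pr Q (recT t l r \ Z) (opn Z (xiT t l r)) {ω | PC ω t (t.1 + l, t.2)} := by
  have hQ0 := hQ.pos
  have hQ1 := hQ.lt.le
  obtain ⟨α, C, hα, -, hS⟩ := hA
  obtain ⟨K, hK2, hK⟩ := exists_K (C := C) hα
  have hK2' : (2 : ℤ) ≤ K := by exact_mod_cast hK2
  obtain ⟨κ', hκ'⟩ : ∃ κ' : ℕ, κ ≤ κ' := ⟨κ.toNat, Int.self_le_toNat κ⟩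
  obtain ⟨c₁, hc₁, hc₁', h1⟩ := VT_TR hQ0 hQ1 hV (16 * K * κ' + 24)
  obtain ⟨c₂, hc₂, hc₂', h2⟩ := VT_TL hQ0 hQ1 hV (16 * K * κ' + 24)
  refine ⟨min c₁ c₂ / 8, by positivity, 16 * K, 16 * K, by omega, by omega,
    fun t l r ρ Z ht hl hr hrl hlr hZ hρ _ ξ hξ hrow => ?_⟩
  -- the scales
  have hr0 : 0 < r := by omega
  obtain ⟨u, hu⟩ : ∃ u : ℕ, (u : ℤ) = r / (8 * K) :=
    ⟨(r / (8 * K)).toNat, Int.toNat_of_nonneg (Int.ediv_nonneg hr0.le (by omega))⟩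
  have hK0 : (0 : ℤ) < 8 * K := by omega
  have hu1 : (u : ℤ) * (8 * K) ≤ r := by
    rw [hu]
    exact Int.ediv_mul_le r hK0.ne'
  have hu2 : r < ((u : ℤ) + 1) * (8 * K) := by
    rw [hu]
    exact Int.lt_ediv_add_one_mul_self r hK0
  have hu3 : (2 : ℤ) ≤ u := by
    by_contra h
    have h' : (u : ℤ) + 1 ≤ 2 := by omega
    nlinarith
  have hu4 : r ≤ 16 * K * u := by nlinarith
  have hm8 : K * (8 * (u : ℤ)) ≤ r := by nlinarith
  have hr12 : 16 * (u : ℤ) ≤ r := by nlinarith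
  have hl20 : 20 * (u : ℤ) ≤ l := by nlinarith
  have hlM : l + 24 * (u : ℤ) ≤ ((16 * K * κ' + 24 : ℕ) : ℤ) * u := by
    push_cast
    have h3 : κ * r ≤ κ' * r := mul_le_mul_of_nonneg_right hκ' hr0.le
    have h4 : (κ' : ℤ) * r ≤ κ' * (16 * K * u) := mul_le_mul_of_nonneg_left hu4 (by omega)
    nlinarith
  have hρu : ρ ≤ u := by
    have h3 : 16 * K * ρ ≤ 16 * K * (u : ℤ) := by linarith
    exact le_of_mul_le_mul_left h3 (by omega)
  have hZu : Z ⊆ HBt t (u : ℤ) := by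
    intro v hv
    have h3 := hZ hv
    simp only [BR.hbox, Finset.mem_product, Finset.mem_Icc] at h3
    rw [mem_HBt]
    omega
  have hZm : Z ⊆ HBt t ((8 * u : ℕ) : ℤ) := hb_bq (by push_cast; omega) hZu
  obtain ⟨m, hm⟩ : ∃ m : ℕ, m = 8 * u := ⟨_, rfl⟩
  have hm' : ((8 * u : ℕ) : ℤ) = 8 * u := by push_cast; ring
  -- the condition outside
  have hη : Good (xiT t l r) := by
    have e : xiT t l r = cf (Finset.Ico (t.1 + l) (t.1 + l + r) ×ˢ {t.2 - 1}) eta0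
        (Finset.Ico (t.1 + l) (t.1 + l + r) ×ˢ {t.2 - 1}) := by
      funext v
      by_cases h3 : v ∈ Finset.Ico (t.1 + l) (t.1 + l + r) ×ˢ ({t.2 - 1} : Finset ℤ)
      · rw [H519.cf_in h3, decide_eq_true h3]
        rw [Finset.mem_product, Finset.mem_Ico, Finset.mem_singleton] at h3
        exact decide_eq_true ⟨h3.2, h3.1⟩
      · rw [FKA.cf_out h3]
        rw [Finset.mem_product, Finset.mem_Ico, Finset.mem_singleton] at h3
        exact decide_eq_false fun h4 => h3 ⟨h4.2, h4.1⟩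
    rw [e]
    exact f_good.1 _ _ _ f_good.2.1
  -- the arm bound
  have hp : ArmAt Q t ((8 * u : ℕ) : ℤ) r (HBt t r) (1 / 2) := by
    have h3 : H635.Shp (HBt t r) t ((8 * u : ℕ) : ℤ) r := H635.shp_ge2 (c := t.2) fun v hv => by
      have h4 := H635.mem_Bq.1 (H635.ann_box hv)
      rw [mem_HBt]
      omega
    exact (hS t _ r (HBt t r) (by push_cast; omega) (by push_cast; omega) h3).le
      (hK _ _ (by push_cast; omega) (by push_cast; linarith))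
  -- the local comparison
  obtain ⟨F, hF⟩ : ∃ F : Cfg → ℝ, F = fun ω =>
    (ArmT t ((8 * u : ℕ) : ℤ)).indicator 1 (opn Z ω) := ⟨_, rfl⟩
  have hF0 : ∀ ω, 0 ≤ F ω := fun ω => by
    rw [hF]
    exact FKA.ind_nonneg _ _
  have hFl : FKA.Loc (HBt t ((8 * u : ℕ) : ℤ) \ Z) F := by
    intro ω ω' h3
    rw [hF]
    have h4 : ∀ v ∈ HBt t ((8 * u : ℕ) : ℤ), opn Z ω v = opn Z ω' v := by
      intro v hv
      by_cases hz : v ∈ Z
      · rw [opn_in hz, opn_in hz]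
      · rw [opn_out hz, opn_out hz]
        exact h3 v (mem_sdiff.2 ⟨hv, hz⟩)
    by_cases h5 : opn Z ω ∈ ArmT t ((8 * u : ℕ) : ℤ)
    · show (ArmT t ((8 * u : ℕ) : ℤ)).indicator 1 (opn Z ω) =
        (ArmT t ((8 * u : ℕ) : ℤ)).indicator (1 : Cfg → ℝ) (opn Z ω')
      rw [Set.indicator_of_mem h5, Set.indicator_of_mem (armT_congr h4 h5)]
      rfl
    · have h6 : opn Z ω' ∉ ArmT t ((8 * u : ℕ) : ℤ) := fun h6 =>
        h5 (armT_congr (fun v hv => (h4 v hv).symm) h6)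
      show (ArmT t ((8 * u : ℕ) : ℤ)).indicator 1 (opn Z ω) =
        (ArmT t ((8 * u : ℕ) : ℤ)).indicator (1 : Cfg → ℝ) (opn Z ω')
      rw [Set.indicator_of_notMem h5, Set.indicator_of_notMem h6]
  have hloc := loc_dom (Q := Q) (t := t) (m := ((8 * u : ℕ) : ℤ)) (r := r) (D := recT t l r)
    (ξ := ξ) (η := xiT t l r) (F := F) hQ0 hQ1 (by push_cast; omega) hp le_rfl hZm
    (Finset.Subset.refl _) hF0 hFl hξ hη (fun x hx hx' => hrow x (by omega) (by omega))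
    (fun v hv => by
      have := mem_HBt.1 hv
      rw [mem_recT]
      omega) (fun x hx hx' => ⟨fun h => by
        have := (mem_recT.1 h).2.2.1
        dsimp only at this
        omega, decide_eq_false fun h => by
        have := h.2.1
        dsimp only at this
        omega⟩)
  have hcf : ∀ (A : Finset (ℤ × ℤ)) (ζ : Cfg) (S : Finset (ℤ × ℤ)),
      opn Z (cf (A \ Z) (opn Z ζ) S) = cf (A \ Z) (opn Z ζ) S := by
    intro A ζ S
    funext v
    by_cases hz : v ∈ Z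
    · rw [opn_in hz, FKA.cf_out fun h => (mem_sdiff.1 h).2 hz, opn_in hz]
    · rw [opn_out hz]
  have e1 : Pr Q (HBt t r \ Z) (opn Z ξ) (ArmT t r) ≤ Ex Q (HBt t r \ Z) (opn Z ξ) F := by
    unfold Pr
    refine FKA.Ex_mono hQ0 fun S _ => ?_
    rw [hF]
    show _ ≤ (ArmT t ((8 * u : ℕ) : ℤ)).indicator 1 (opn Z (cf (HBt t r \ Z) (opn Z ξ) S))
    rw [hcf]
    exact Set.indicator_le_indicator_of_subset (armT_mono (by push_cast; omega)
      (by push_cast; omega)) (fun _ => zero_le_one) _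
  have e2 : Ex Q (recT t l r \ Z) (opn Z (xiT t l r)) F =
      Pr Q (recT t l r \ Z) (opn Z (xiT t l r)) (ArmT t ((8 * u : ℕ) : ℤ)) := by
    unfold Pr
    refine FKA.Ex_congr fun S _ => ?_
    rw [hF]
    show (ArmT t ((8 * u : ℕ) : ℤ)).indicator 1
      (opn Z (cf (recT t l r \ Z) (opn Z (xiT t l r)) S)) = _
    rw [hcf]
  rw [e2] at hloc
  -- the two tubes
  obtain ⟨P, hP⟩ : ∃ P, P = Pr Q (recT t l r \ Z) (opn Z (xiT t l r))
    {ω | PC ω t (t.1 + l, t.2)} := ⟨_, rfl⟩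
  have hP0 : 0 ≤ P := by rw [hP]; exact FKA.Pr_nonneg hQ0 _
  have hkP : ∀ (T A₃ : Set Pt), Pr Q (recT t l r \ Z) (opn Z (xiT t l r))
      (HK1 true ↑(HBt t (8 * u : ℕ)) T (arcQ true (pq t (8 * u)) 0 0) A₃
        (Hs true t.2 (t.1 + l) (t.1 + l + 8 * u))) ≤ P := by
    intro T A₃
    rw [hP]
    unfold Pr
    refine FKA.Ex_mono hQ0 fun S _ => ?_
    by_cases h3 : cf (recT t l r \ Z) (opn Z (xiT t l r)) S ∈
      HK1 true ↑(HBt t (8 * u : ℕ)) T (arcQ true (pq t (8 * u)) 0 0) A₃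
        (Hs true t.2 (t.1 + l) (t.1 + l + 8 * u))
    · have h4 : cf (recT t l r \ Z) (opn Z (xiT t l r)) S ∈ {ω | PC ω t (t.1 + l, t.2)} := by
        refine hk_PC (by omega) ht hl (w := 8 * u) (r := r) (by omega) (fun x hx hx' => ?_) h3
        rw [FKA.cf_out]
        · have hz : (x, t.2 - 1) ∉ Z := fun h => by
            have := (mem_HBt.1 (hZu h)).2.2.1
            dsimp only at this
            omega
          rw [opn_out hz]
          exact decide_eq_true ⟨rfl, hx, hx'⟩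
        · intro h
          have := (mem_recT.1 (mem_sdiff.1 h).1).2.2.1
          dsimp only at this
          omega
      rw [Set.indicator_of_mem h3, Set.indicator_of_mem h4]
    · rw [Set.indicator_of_notMem h3]
      exact FKA.ind_nonneg _ _
  have r1 := (reachR (t := t) (Z := Z) hQ0 hQ1 hη (u := u) (by omega) (l := l) (r := r)
    (by omega) hl20 hZu).trans (hkP _ _)
  have r2 := (reachL (t := t) (Z := Z) hQ0 hQ1 hη (u := u) (by omega) (l := l) (r := r)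
    (by omega) hl20 hZu).trans (hkP _ _)
  have hun := armT_sub (t := t) (m := 8 * u) (h := 4 * u) (by omega) ht (by omega)
  have hsum : Pr Q (recT t l r \ Z) (opn Z (xiT t l r)) (ArmT t ((8 * u : ℕ) : ℤ)) ≤
      Pr Q (recT t l r \ Z) (opn Z (xiT t l r)) (Jn true ↑(HBt t (8 * u : ℕ))
        (arcQ true (pq t (8 * u)) 0 0) (arcQ true (pq t (8 * u)) (8 * u + 4 * u) (5 * (8 * u)))) +
      Pr Q (recT t l r \ Z) (opn Z (xiT t l r)) (Jn true ↑(HBt t (8 * u : ℕ))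
        (arcQ true (pq t (8 * u)) 0 0)
        (arcQ true (pq t (8 * u)) (8 * u) (5 * (8 * u) - 4 * u))) := by
    unfold Pr
    rw [← FKA.Ex_add]
    refine FKA.Ex_mono hQ0 fun S _ => ?_
    by_cases h3 : cf (recT t l r \ Z) (opn Z (xiT t l r)) S ∈ ArmT t ((8 * u : ℕ) : ℤ)
    · rw [Set.indicator_of_mem h3]
      rcases hun h3 with h4 | h4
      · rw [Set.indicator_of_mem h4]
        have := FKA.ind_nonneg (Jn true ↑(HBt t (8 * u : ℕ)) (arcQ true (pq t (8 * u)) 0 0)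
          (arcQ true (pq t (8 * u)) (8 * u) (5 * (8 * u) - 4 * u)))
          (cf (recT t l r \ Z) (opn Z (xiT t l r)) S)
        simp only [Pi.one_apply]
        linarith
      · rw [Set.indicator_of_mem h4]
        have := FKA.ind_nonneg (Jn true ↑(HBt t (8 * u : ℕ)) (arcQ true (pq t (8 * u)) 0 0)
          (arcQ true (pq t (8 * u)) (8 * u + 4 * u) (5 * (8 * u))))
          (cf (recT t l r \ Z) (opn Z (xiT t l r)) S)
        simp only [Pi.one_apply]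
        linarith
    · rw [Set.indicator_of_notMem h3]
      exact add_nonneg (FKA.ind_nonneg _ _) (FKA.ind_nonneg _ _)
  rw [← hP]
  have v1 := h1 true t.1 t.2 l u (by omega) hl20 hlM
  have v2 := h2 true t.1 t.2 l u hu3 hl20 hlM
  have k1 := (mul_le_mul_of_nonneg_right v1 (FKA.Pr_nonneg (Q := Q) hQ0 _)).trans r1
  have k2 := (mul_le_mul_of_nonneg_right v2 (FKA.Pr_nonneg (Q := Q) hQ0 _)).trans r2
  have k3 := (mul_le_mul_of_nonneg_right (min_le_left c₁ c₂)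
    (FKA.Pr_nonneg (Q := Q) hQ0 _)).trans k1
  have k4 := (mul_le_mul_of_nonneg_right (min_le_right c₁ c₂)
    (FKA.Pr_nonneg (Q := Q) hQ0 _)).trans k2
  have hc : 0 < min c₁ c₂ := by positivity
  have k5 := mul_le_mul_of_nonneg_left hsum hc.le
  have k6 := mul_le_mul_of_nonneg_left (e1.trans hloc) hc.le
  linarith

end Vale.Agent.P167.H922
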