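import Vale.Agent.P167.H635.Bdy
import Vale.Agent.P167.H816.Bank
import Vale.Agent.P167.H364.LbT
import Vale.Agent.P167.H364.Opn

/-!
# P167, `0 < q < 4`, [GEO]: local functions at a flat free side

`loc_dom`: the expectations of a local nonnegative function in a half box without the squares of `Z`,
which are open, for two conditions outside which are closed in the row below the half box.
-/

set_option autoImplicit false

namespace Vale.Agent.P167.H922

open Finset Relation Vale.Agent.P167.FK Vale.Agent.P167.FKA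
open Vale.Agent.P145.FB (PStep PConn)
open Vale.Agent.P167.H364 (HBt opn good_opn)
open Vale.Agent.P167.H635 (Wi Wire wir wir_in wir_out mem_Bq bq_mono Ann Cl ArmAt good_wir wi_up
  wi_dn cl_wir ann_box wire_box sub_ind)
open Vale.Agent.P167.H519 (cf_in ind_le_of_imp)
open Vale.Agent.P167.H562.GL (near_of_corx far_of_corx)
open Vale.Agent.P167.H816 (GE GE_congr GE_mono ends mem_ends PCs PCs_iff Ex_eq_GE Ev)

variable {Q : ℝ} {t : ℤ × ℤ} {m r : ℤ} {A V D Z : Finset (ℤ × ℤ)} {ξ η : Cfg} {F : Cfg → ℝ} {p : ℝ}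

/-! ### Two exterior conditions with the same connections -/

theorem ex_le_of_rel (hQ : 0 < Q) {η η' : Cfg} (hη : Good η) (hη' : Good η')
    (hrel : ∀ s ∈ Ev A, ∀ u ∈ Ev A, (PC (cf A η ∅) s u ↔ PC (cf A η' ∅) s u))
    {H H' : Cfg → ℝ} (h : ∀ S ⊆ A, H (cf A η S) ≤ H' (cf A η' S)) :
    Ex Q A η H ≤ Ex Q A η' H' := by
  rw [Ex_eq_GE hQ hη, Ex_eq_GE hQ hη']
  have hev : ∀ s ∈ ends pa pb A, s ∈ Ev A := fun s hs => (mem_ends pa pb A).1 hs
  rw [GE_congr (a := pa) (b := pb) (w := fun _ => Q) (r' := PCs (cf A η' ∅)) (pow_pos hQ 2)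
    (F := fun S => H (cf A η S)) (F' := fun S => H (cf A η S)) ?_ (fun _ _ => rfl)]
  · exact GE_mono (fun _ => hQ.le) (pow_pos hQ 2) h
  · intro s hs u hu
    rw [PCs_iff (H816.even_Ev (hev s hs)), PCs_iff (H816.even_Ev (hev s hs))]
    exact hrel s (hev s hs) u (hev u hu)

/-! ### The half box and the row below -/

/-- The half box with the row below. -/
noncomputable def HB1 (t : ℤ × ℤ) (r : ℤ) : Finset (ℤ × ℤ) :=
  Finset.Ico (t.1 - r) (t.1 + r) ×ˢ Finset.Ico (t.2 - 1) (t.2 + r)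

theorem mem_HBt {v : ℤ × ℤ} : v ∈ HBt t r ↔ t.1 - r ≤ v.1 ∧ v.1 < t.1 + r ∧ t.2 ≤ v.2 ∧
    v.2 < t.2 + r := by
  simp only [HBt, Finset.mem_product, Finset.mem_Ico]
  tauto

theorem mem_HB1 {v : ℤ × ℤ} : v ∈ HB1 t r ↔ t.1 - r ≤ v.1 ∧ v.1 < t.1 + r ∧ t.2 - 1 ≤ v.2 ∧
    v.2 < t.2 + r := by
  simp only [HB1, Finset.mem_product, Finset.mem_Ico]
  tauto

/-- Open outside of the half box and the row below. -/
noncomputable def wr (t : ℤ × ℤ) (r : ℤ) : Cfg := cf (HB1 t r) eta1 ∅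

theorem good_wr (t : ℤ × ℤ) (r : ℤ) : Good (wr t r) := f_good.1 _ _ _ f_good.2.2

theorem wr_in {v : ℤ × ℤ} (h : v ∈ HB1 t r) : wr t r v = false := by
  rw [wr, cf_in h]
  simp

theorem wr_out {v : ℤ × ℤ} (h : v ∉ HB1 t r) : wr t r v = true := by
  rw [wr, cf_out h]
  rfl

theorem opn_in {v : ℤ × ℤ} (h : v ∈ Z) : opn Z η v = true := by simp [opn, h]

theorem opn_out {v : ℤ × ℤ} (h : v ∉ Z) : opn Z η v = η v := by simp [opn, h]

/-- The sites which are not strictly inside of the half box with the row. -/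
def ou (t : ℤ × ℤ) (r : ℤ) : Set (ℤ × ℤ) :=
  {s | Even (s.1 + s.2) ∧ (s.1 ≤ t.1 - r ∨ t.1 + r ≤ s.1 ∨ s.2 ≤ t.2 - 1 ∨ t.2 + r ≤ s.2)}

/-- Closed in the row below. -/
def RowC (t : ℤ × ℤ) (r : ℤ) (ξ : Cfg) : Prop :=
  ∀ x : ℤ, t.1 - r ≤ x → x < t.1 + r → ξ (x, t.2 - 1) = false

theorem ou_of_cor {v s : ℤ × ℤ} (hv : v ∉ HB1 t r) (hs : Cor v s) (he : Even (s.1 + s.2)) :
    s ∈ ou t r := by
  refine ⟨he, ?_⟩
  rw [mem_HB1] at hv
  unfold Cor at hs
  omega

theorem ou_conn {F : Set (ℤ × ℤ)} (hF : ∀ v, v ∉ HB1 t r → v ∈ F) {s u : ℤ × ℤ} (hs : s ∈ ou t r)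
    (hu : u ∈ ou t r) : ReflTransGen (PStep F) s u := by
  obtain ⟨h1, h2⟩ := hs
  obtain ⟨h3, h4⟩ := hu
  refine outside_conn (a := t.1 - r) (b := t.1 + r - 1) (c := t.2 - 1) (d := t.2 + r - 1)
    (fun v hv => hF v fun h => ?_) h1 h3 (by omega) (by omega)
  rw [mem_HB1] at h
  omega

/-- No even corner of `Z` is outside. -/
theorem z_ou (hmr : m < r) (hZ : Z ⊆ HBt t m) {v s : ℤ × ℤ} (hv : v ∈ Z) (hs : Cor v s) :
    s ∉ ou t r := by
  rintro ⟨h1, h2⟩
  have := mem_HBt.1 (hZ hv)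
  unfold Cor at hs
  omega

theorem wi_wr (hmr : m < r) (hZ : Z ⊆ HBt t m) (h : RowC t r ξ) :
    Wi (HBt t r \ Z) (opn Z ξ) (opn Z (wr t r)) (ou t r) where
  le v hv hξ := by
    by_cases hz : v ∈ Z
    · exact opn_in hz
    rw [opn_out hz] at hξ ⊢
    refine wr_out fun h1 => ?_
    have h2 := mem_HB1.1 h1
    have h3 : v.2 = t.2 - 1 := by
      by_contra h4
      exact hv (Finset.mem_sdiff.2 ⟨mem_HBt.2 ⟨h2.1, h2.2.1, by omega, h2.2.2.2⟩, hz⟩)
    have h5 := h v.1 h2.1 h2.2.1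
    rw [← h3] at h5
    rw [h5] at hξ
    simp at hξ
  new v hv h0 h1 := by
    have hz : v ∉ Z := fun hz => by
      rw [opn_in hz] at h0
      simp at h0
    rw [opn_out hz] at h1
    have hvB : v ∉ HB1 t r := fun h => by
      rw [wr_in h] at h1
      simp at h1
    exact ⟨ou_of_cor hvB (H519.pa_cor v) (H519.pa_even v),
      ou_of_cor hvB (H519.pb_cor v) (H519.pb_even v)⟩
  con s hs u hu := by
    refine ou_conn (fun v hv => ?_) hs hu
    show cf (HBt t r \ Z) (opn Z (wr t r)) ∅ v = true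
    have h1 : v ∉ HBt t r := fun h => by
      rw [mem_HBt] at h
      rw [mem_HB1] at hv
      omega
    have h2 : v ∉ Z := fun h => h1 (by
      have := mem_HBt.1 (hZ h)
      rw [mem_HBt]
      omega)
    rw [cf_out fun h => h1 (Finset.mem_sdiff.1 h).1, opn_out h2, wr_out hv]

/-- The corners of the squares of the half box. -/
theorem ev_hb {s : ℤ × ℤ} (hs : s ∈ Ev (HBt t r \ Z)) : Even (s.1 + s.2) ∧ t.1 - r ≤ s.1 ∧
    s.1 ≤ t.1 + r ∧ t.2 ≤ s.2 ∧ s.2 ≤ t.2 + r := by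
  refine ⟨H816.even_Ev hs, ?_⟩
  obtain ⟨e, he, h⟩ := hs
  rw [Finset.mem_sdiff, mem_HBt] at he
  have h1 : Cor e s := by
    rcases h with h | h
    · rw [h]; exact H519.pa_cor e
    · rw [h]; exact H519.pb_cor e
  unfold Cor at h1
  omega

/-- A site inside is joined only by squares of `Z`, if the box with the row is closed off `Z`. -/
theorem iso (hmr : m < r) (hZ : Z ⊆ HBt t m) {ω : Cfg} (hω : ∀ v ∈ HB1 t r, v ∉ Z → ω v = false)
    {s u : ℤ × ℤ} (hs : Even (s.1 + s.2)) (hs' : s ∉ ou t r) (h : PC ω s u) :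
    ReflTransGen (PStep (↑Z : Set (ℤ × ℤ))) s u ∧ u ∉ ou t r ∧ Even (u.1 + u.2) := by
  unfold PC at h
  induction h with
  | refl => exact ⟨ReflTransGen.refl, hs', hs⟩
  | @tail y z hy hyz ih =>
    obtain ⟨ih1, ih2, ih3⟩ := ih
    have h1 := cor_of_step hyz
    have h2 : ω (min y.1 z.1, min y.2 z.2) = true := hyz.2.2
    have h3 : (min y.1 z.1, min y.2 z.2) ∈ HB1 t r := by
      by_contra h3
      exact ih2 (ou_of_cor h3 h1.1 ih3)
    have h4 : (min y.1 z.1, min y.2 z.2) ∈ Z := by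
      by_contra h4
      rw [hω _ h3 h4] at h2
      simp at h2
    exact ⟨ih1.tail ⟨hyz.1, hyz.2.1, h4⟩, z_ou hmr hZ h4 h1.2, (FKA.even_step hyz).1 ih3⟩

theorem rel_eq (hmr : m < r) (hZ : Z ⊆ HBt t m) {s u : ℤ × ℤ} (hs : s ∈ Ev (HBt t r \ Z))
    (hu : u ∈ Ev (HBt t r \ Z)) :
    PC (cf (HBt t r \ Z) (opn Z (wr t r)) ∅) s u ↔
      PC (cf (HBt t r \ Z) (opn Z (wir t r)) ∅) s u := by
  obtain ⟨es, hs1⟩ := ev_hb hs
  obtain ⟨eu, hu1⟩ := ev_hb hu
  have c0 : ∀ ω : Cfg, ∀ v ∈ Z, cf (HBt t r \ Z) (opn Z ω) ∅ v = true := by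
    intro ω v hv
    rw [cf_out fun h => (Finset.mem_sdiff.1 h).2 hv, opn_in hv]
  have c1 : ∀ v ∈ HB1 t r, v ∉ Z → cf (HBt t r \ Z) (opn Z (wr t r)) ∅ v = false := by
    intro v hv hz
    by_cases h : v ∈ HBt t r \ Z
    · rw [cf_in h]; simp
    · rw [cf_out h, opn_out hz, wr_in hv]
  have c2 : ∀ v ∈ HB1 t r, v ∉ Z → cf (HBt t r \ Z) (opn Z (wir t r)) ∅ v = false := by
    intro v hv hz
    by_cases h : v ∈ HBt t r \ Z
    · rw [cf_in h]; simp
    · rw [cf_out h, opn_out hz]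
      by_cases hr : v ∈ Bq t r
      · exact wir_in hr
      · exfalso
        have h' : v ∉ HBt t r := fun k => h (Finset.mem_sdiff.2 ⟨k, hz⟩)
        rw [mem_HB1] at hv
        rw [mem_HBt] at h'
        rw [mem_Bq] at hr
        omega
  have zz : ∀ ω : Cfg, ∀ {s u : ℤ × ℤ}, ReflTransGen (PStep (↑Z : Set (ℤ × ℤ))) s u →
      PC (cf (HBt t r \ Z) (opn Z ω) ∅) s u := by
    intro ω s u h
    exact ReflTransGen.mono (fun a b hab => ⟨hab.1, hab.2.1, c0 ω _ hab.2.2⟩) _ _ h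
  by_cases h1 : s ∈ ou t r
  · by_cases h2 : u ∈ ou t r
    · refine iff_of_true ((wi_wr hmr hZ (ξ := eta0) fun _ _ _ => rfl).con s h1 u h2) ?_
      have hf : ∀ {z : ℤ × ℤ}, z ∈ ou t r → (t.1 - r ≤ z.1 ∧ z.1 ≤ t.1 + r ∧ t.2 ≤ z.2 ∧
          z.2 ≤ t.2 + r) → z ∈ H635.far t r := by
        intro z hz hz1
        obtain ⟨h3, h4⟩ := hz
        exact ⟨h3, H635.far_iff.2 (by omega)⟩
      have h3 := (wire_box (x := t) (R := r) (A := Bq t r) (ξ := eta0) (fun v hv => hv)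
        (fun _ _ _ => rfl)).con s (hf h1 hs1) u (hf h2 hu1)
      refine ReflTransGen.mono (fun a b hab => ⟨hab.1, hab.2.1, ?_⟩) _ _ h3
      have h4 : cf (Bq t r) (wir t r) ∅ (min a.1 b.1, min a.2 b.2) = true := hab.2.2
      show cf (HBt t r \ Z) (opn Z (wir t r)) ∅ _ = true
      have h5 : (min a.1 b.1, min a.2 b.2) ∉ Bq t r := fun h => by
        rw [cf_in h] at h4
        simp at h4
      by_cases hz : (min a.1 b.1, min a.2 b.2) ∈ Z
      · exact c0 _ _ hz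
      · rw [cf_out, opn_out hz, wir_out h5]
        intro h
        refine h5 ?_
        have := mem_HBt.1 (Finset.mem_sdiff.1 h).1
        rw [mem_Bq]
        omega
    · constructor
      · intro h
        exact absurd h1 (iso hmr hZ c1 eu h2 (H816.PC_symm h)).2.1
      · intro h
        exact absurd h1 (iso hmr hZ c2 eu h2 (H816.PC_symm h)).2.1
  · constructor
    · intro h
      exact zz _ (iso hmr hZ c1 es h1 h).1
    · intro h
      exact zz _ (iso hmr hZ c2 es h1 h).1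

/-- A connection with the outside sites gives an arm of the annulus. -/
theorem arm_of {S : Finset (ℤ × ℤ)} (hmr : m < r) (hZ : Z ⊆ HBt t m) (hV : V ⊆ HBt t m)
    (h : H519.Jn (ou t r) V (cf (HBt t r \ Z) (opn Z (wr t r)) S)) :
    ArmPx t m r (cf (HBt t r \ Z) (opn Z (wir t r)) S) := by
  obtain ⟨s, hs, u, ⟨w, hw, hwu⟩, hsu⟩ := h
  have hw1 := mem_HBt.1 (hV hw)
  have hu1 : u ∉ ou t r := by
    rintro ⟨h1, h2⟩
    unfold Cor at hwu
    omega
  have hue : Even (u.1 + u.2) := by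
    have := rtg_parity hsu
    have := hs.1
    rw [Int.even_iff] at *
    omega
  have key : ∀ z : ℤ × ℤ, PC (cf (HBt t r \ Z) (opn Z (wr t r)) S) z s → Even (z.1 + z.2) →
      z ∈ ou t r ∨ ∃ y, (Even (y.1 + y.2) ∧ r ≤ nm (y - t)) ∧
        PC (cf (HBt t r \ Z) (opn Z (wir t r)) S) z y := by
    intro z hz
    unfold PC at hz
    induction hz using ReflTransGen.head_induction_on with
    | refl => exact fun _ => Or.inl hs
    | @head z y hzy hy ih =>
      intro hze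
      by_cases hzo : z ∈ ou t r
      · exact Or.inl hzo
      right
      have hye : Even (y.1 + y.2) := (FKA.even_step hzy).1 hze
      have hc := cor_of_step hzy
      have hop : cf (HBt t r \ Z) (opn Z (wr t r)) S (min z.1 y.1, min z.2 y.2) = true := hzy.2.2
      have hin0 : (min z.1 y.1, min z.2 y.2) ∈ HB1 t r := by
        by_contra h3
        exact hzo (ou_of_cor h3 hc.1 hze)
      have hop' : cf (HBt t r \ Z) (opn Z (wir t r)) S (min z.1 y.1, min z.2 y.2) = true := by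
        by_cases h1 : (min z.1 y.1, min z.2 y.2) ∈ HBt t r \ Z
        · rw [cf_in h1] at hop ⊢
          exact hop
        · rw [cf_out h1] at hop ⊢
          by_cases hz : (min z.1 y.1, min z.2 y.2) ∈ Z
          · exact opn_in hz
          · rw [opn_out hz, wr_in hin0] at hop
            simp at hop
      have hin : (min z.1 y.1, min z.2 y.2) ∈ HBt t r := by
        by_contra hno
        have h1 : (min z.1 y.1, min z.2 y.2) ∉ Z := fun h => hno (by
          have := mem_HBt.1 (hZ h)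
          rw [mem_HBt]
          omega)
        rw [cf_out fun h => hno (Finset.mem_sdiff.1 h).1, opn_out h1, wr_in hin0] at hop
        simp at hop
      have hstep : PC (cf (HBt t r \ Z) (opn Z (wir t r)) S) z y :=
        ReflTransGen.single ⟨hzy.1, hzy.2.1, hop'⟩
      rcases ih hye with ih | ⟨y', h1, h2⟩
      · refine ⟨y, ⟨hye, ?_⟩, hstep⟩
        rw [H635.far_iff]
        obtain ⟨-, h4⟩ := ih
        rw [mem_HBt] at hin
        have h5 := hc.2
        unfold Cor at h5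
        omega
      · exact ⟨y', h1, hstep.trans h2⟩
  rcases key u (H816.PC_symm hsu) hue with h | ⟨y, ⟨hy1, hy2⟩, hy⟩
  · exact absurd h hu1
  · rw [armPx_iff hmr.le]
    refine ⟨u, y, hue, near_of_corx (x := t) (r := m) (v := w) ?_ hwu, hy2, hy⟩
    rw [mem_Bq]
    omega

theorem hb_bq (hmr : m ≤ r) (hV : V ⊆ HBt t m) : V ⊆ HBt t r := by
  intro v hv
  have := mem_HBt.1 (hV hv)
  rw [mem_HBt]
  omega

/-- The arm bound at the reference condition. -/
theorem jn_ex (hQ0 : 0 < Q) (hmr : m < r) (hp : ArmAt Q t m r (HBt t r) p) (hZ : Z ⊆ HBt t m)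
    (hV : V ⊆ HBt t m \ Z) (hF0 : ∀ ω, 0 ≤ F ω) (hF : Loc V F) :
    Ex Q (HBt t r \ Z) (opn Z (wr t r))
        (fun ω => F ω * {ω | H519.Jn (ou t r) V ω}.indicator 1 ω) ≤
      p * Ex Q (HBt t r \ Z) (opn Z (wr t r)) F := by
  have hV' : V ⊆ HBt t m := fun v hv => (Finset.mem_sdiff.1 (hV hv)).1
  have hFeq : ∀ S : Finset (ℤ × ℤ), F (cf (HBt t r \ Z) (opn Z (wr t r)) S) =
      F (cf (HBt t r \ Z) (opn Z (wir t r)) S) := by
    intro S
    refine hF _ _ fun v hv => ?_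
    have hv' : v ∈ HBt t r \ Z :=
      Finset.mem_sdiff.2 ⟨hb_bq hmr.le hV' hv, (Finset.mem_sdiff.1 (hV hv)).2⟩
    rw [cf_in hv', cf_in hv']
  have h1 : Ex Q (HBt t r \ Z) (opn Z (wr t r))
        (fun ω => F ω * {ω | H519.Jn (ou t r) V ω}.indicator 1 ω) ≤
      Ex Q (HBt t r \ Z) (opn Z (wir t r))
        (fun ω => F ω * {ω | ArmPx t m r ω}.indicator 1 ω) := by
    refine ex_le_of_rel hQ0 (good_opn (good_wr t r)) (good_opn (good_wir t r))
      (fun s hs u hu => rel_eq hmr hZ hs hu) fun S _ => ?_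
    rw [hFeq]
    refine mul_le_mul_of_nonneg_left ?_ (hF0 _)
    by_cases hj : cf (HBt t r \ Z) (opn Z (wr t r)) S ∈ {ω | H519.Jn (ou t r) V ω}
    · rw [Set.indicator_of_mem hj, Set.indicator_of_mem
        (show cf (HBt t r \ Z) (opn Z (wir t r)) S ∈ {ω | ArmPx t m r ω} from
          arm_of hmr hZ hV' hj)]
      exact le_rfl
    · rw [Set.indicator_of_notMem hj]
      exact Set.indicator_nonneg (fun _ _ => zero_le_one) _
  have hp' : ArmAt Q t m r (HBt t r \ Z) p := hp.congr (by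
    ext v
    simp only [Finset.mem_inter, Finset.mem_sdiff]
    constructor
    · rintro ⟨a, b⟩
      refine ⟨⟨a, fun hz => ?_⟩, b⟩
      have h1 := mem_HBt.1 (hZ hz)
      have h2 := (Finset.mem_sdiff.1 b).2
      rw [mem_Bq] at h2
      omega
    · rintro ⟨⟨a, -⟩, b⟩
      exact ⟨a, b⟩)
  have hcl : Cl (Ann t m r) (HBt t r \ Z) (opn Z (wir t r)) := by
    intro v hv _
    have h1 := Finset.mem_sdiff.1 hv
    have hz : v ∉ Z := fun hz => h1.2 (by
      have := mem_HBt.1 (hZ hz)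
      rw [mem_Bq]
      omega)
    rw [opn_out hz]
    exact wir_in h1.1
  have h2 := hp'.ex hQ0 (good_opn (good_wir t r)) hcl hF0 (G := F) (fun ω ω' h =>
    hF ω ω' fun v hv => h v fun h' => by
      have h3 := (Finset.mem_sdiff.1 (Finset.mem_inter.1 h').2).2
      refine h3 ?_
      have := mem_HBt.1 (hV' hv)
      rw [mem_Bq]
      omega)
  have h3 : Ex Q (HBt t r \ Z) (opn Z (wir t r)) F ≤ Ex Q (HBt t r \ Z) (opn Z (wr t r)) F :=
    ex_le_of_rel hQ0 (good_opn (good_wir t r)) (good_opn (good_wr t r))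
      (fun s hs u hu => (rel_eq hmr hZ hs hu).symm) fun S _ => (hFeq S).symm.le
  have hp0 := hp.nonneg hQ0
  exact h1.trans (h2.trans (mul_le_mul_of_nonneg_left h3 hp0))

/-- **Two conditions which are closed in the row below the half box.** -/
theorem loc_le (hQ0 : 0 < Q) (hQ1 : Q ≤ 1) (hmr : m < r) (hp : ArmAt Q t m r (HBt t r) p)
    (hp1 : p ≤ 1 / 2) (hZ : Z ⊆ HBt t m) (hV : V ⊆ HBt t m \ Z) (hF0 : ∀ ω, 0 ≤ F ω)
    (hF : Loc V F) (hξ : Good ξ) (hη : Good η) (h1 : RowC t r ξ) (h2 : RowC t r η) :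
    Ex Q (HBt t r \ Z) (opn Z ξ) F ≤ 4 * Ex Q (HBt t r \ Z) (opn Z η) F := by
  have hVA : V ⊆ HBt t r \ Z := fun v hv => by
    have h3 := Finset.mem_sdiff.1 (hV hv)
    exact Finset.mem_sdiff.2 ⟨hb_bq hmr.le subset_rfl h3.1, h3.2⟩
  have a1 := jn_ex hQ0 hmr hp hZ hV (F := fun _ => 1) (fun _ => zero_le_one) (fun _ _ _ => rfl)
  rw [Ex_const hQ0, mul_one] at a1
  simp only [one_mul] at a1
  have a2 := jn_ex hQ0 hmr hp hZ hV hF0 hF
  have b1 := wi_dn hQ0 hQ1 hVA (good_opn hξ) (good_opn (good_wr t r)) (wi_wr hmr hZ h1) hF0 hF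
    (p := p) a1
  have b2 := wi_up hQ0 hQ1 hVA (good_opn hη) (good_opn (good_wr t r)) (wi_wr hmr hZ h2) hF0 hF a2
  have e0 : 0 ≤ Ex Q (HBt t r \ Z) (opn Z (wr t r)) F := Ex_nonneg hQ0 fun _ _ => hF0 _
  have e1 : 0 ≤ Ex Q (HBt t r \ Z) (opn Z ξ) F := Ex_nonneg hQ0 fun _ _ => hF0 _
  have e2 : 0 ≤ Ex Q (HBt t r \ Z) (opn Z η) F := Ex_nonneg hQ0 fun _ _ => hF0 _
  nlinarith

/-- **Comparison with a larger domain.** -/
theorem loc_dom (hQ0 : 0 < Q) (hQ1 : Q ≤ 1) (hmr : m < r) (hp : ArmAt Q t m r (HBt t r) p)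
    (hp1 : p ≤ 1 / 2) (hZ : Z ⊆ HBt t m) (hV : V ⊆ HBt t m \ Z) (hF0 : ∀ ω, 0 ≤ F ω)
    (hF : Loc V F) (hξ : Good ξ) (hη : Good η) (h1 : RowC t r ξ) (hD : HBt t r ⊆ D)
    (h2 : ∀ x : ℤ, t.1 - r ≤ x → x < t.1 + r → (x, t.2 - 1) ∉ D ∧ η (x, t.2 - 1) = false) :
    Ex Q (HBt t r \ Z) (opn Z ξ) F ≤ 4 * Ex Q (D \ Z) (opn Z η) F := by
  have hDZ : HBt t r \ Z ⊆ D \ Z := Finset.sdiff_subset_sdiff hD (Finset.Subset.refl Z)
  rw [H259.f_markov Q (HBt t r \ Z) (D \ Z) (opn Z η) F hQ0 hDZ (good_opn hη), ← Ex_mul_left,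
    ← Ex_const (Q := Q) (D := D \ Z) (η := opn Z η) hQ0 (Ex Q (HBt t r \ Z) (opn Z ξ) F)]
  refine Ex_mono hQ0 fun S _ => ?_
  have e : cf (D \ Z) (opn Z η) S = opn Z (cf (D \ Z) (opn Z η) S) := by
    funext v
    by_cases hz : v ∈ Z
    · rw [opn_in hz, cf_out fun h => (Finset.mem_sdiff.1 h).2 hz, opn_in hz]
    · rw [opn_out hz]
  rw [e]
  refine loc_le hQ0 hQ1 hmr hp hp1 hZ hV hF0 hF hξ (f_good.1 _ _ _ (good_opn hη)) h1
    fun x hx hx' => ?_
  have hz : (x, t.2 - 1) ∉ Z := fun h => by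
    have := (mem_HBt.1 (hZ h)).2.2.1
    simp only at this
    omega
  rw [cf_out fun h => (h2 x hx hx').1 (Finset.mem_sdiff.1 h).1, opn_out hz]
  exact (h2 x hx hx').2

end Vale.Agent.P167.H922
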