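import Vale.Agent.P167.N.NET.Vrs

/-!
# P167, nets for `q < 1`: turns of tubes, the rest of the tube away from the rectangle

`tu_*`: as `turn_*`, the tube `T` may have other squares which do not touch the rectangle.
-/

set_option autoImplicit false

namespace Vale.Agent.P167.H922

open Finset Vale.Agent.P167 Vale.Agent.P167.FK Vale.Agent.P167.H816 Vale.Agent.P167.H262
  Vale.Agent.P167.H632 Vale.Agent.P167.H871 Vale.Agent.P167.H192.TA Vale.Agent.P167.N.NET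

variable {Q : ℝ} {T : Finset Pt} {e : Bool} {a b c d : ℤ} {A B : Set Pt}

/-- The square does not touch the rectangle. -/
def Off (a b c d : ℤ) (t : Pt) : Prop := t.1 + 1 < a ∨ b < t.1 ∨ t.2 + 1 < c ∨ d < t.2

/-- The site is not in the rectangle. -/
def OffS (a b c d : ℤ) (t : Pt) : Prop := t.1 < a ∨ b < t.1 ∨ t.2 < c ∨ d < t.2

theorem off_no {t y : Pt} (h : Off a b c d t) (hy : Cor e t y) (h' : y ∈ Vc e ↑(Rsq a b c d)) :
    False := by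
  obtain ⟨r1, r2, r3, r4, r5⟩ := vc_rect h'
  obtain ⟨c1, c2, c3⟩ := hy
  unfold Off at h
  omega

theorem offs_no {y : Pt} (h : OffS a b c d y) (h' : y ∈ Vc e ↑(Rsq a b c d)) : False := by
  obtain ⟨r1, r2, r3, r4, r5⟩ := vc_rect h'
  unfold OffS at h
  omega

/-- `T` starts on the right side of the rectangle and leaves it on the left side. -/
theorem tu_VL (hQ : 0 < Q) (hQ1 : Q ≤ 1) (hab : a < b) (hcd : c < d)
    (hT : ∀ t ∈ T, t ∉ Rsq a b c d → t.1 < a ∨ Off a b c d t) (hAT : A ⊆ Bd e T)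
    (hBT : B ⊆ Bd e T) (hA : A ⊆ Vs e b c d) (hB : ∀ z ∈ B, OffS a b c d z) :
    VT Q e T A B * VT Q e (Rsq a b c d) (Hs e c a b) (Hs e d a b) ≤
        VT Q e (Rsq a b c d ∪ T) (Hs e c a b) B ∧
      VT Q e T A B * VT Q e (Rsq a b c d) (Hs e c a b) (Hs e d a b) ≤
        VT Q e (Rsq a b c d ∪ T) (Hs e d a b) B := by
  refine turn hQ hQ1 (quad_V e hab.le hcd.le).swap24 (fan_rect _ _ _ _ _)
    (bd_bot fun t ht => (mem_Rsq.1 ht).2.2.1) (bd_top fun t ht => (mem_Rsq.1 ht).2.2.2) hAT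
    (fun y hy => ?_) (fun t ht ht' y hy hyR => ?_) hBT
    (fun z hz hzR => absurd hzR fun h => offs_no (hB z hz) h)
  · obtain ⟨y1, y2, y3, y4⟩ := hA hy
    exact nx_right hab hcd y1 y2 y3 y4
  · rcases hT t ht ht' with h | h
    · obtain ⟨r1, r2, r3, r4, r5⟩ := vc_rect hyR
      obtain ⟨c1, c2, c3⟩ := hy
      exact nx_left hab hcd (by omega) r3 r4 r5
    · exact (off_no h hy hyR).elim

/-- `T` starts on the left side of the rectangle and leaves it on the right side. -/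
theorem tu_VR (hQ : 0 < Q) (hQ1 : Q ≤ 1) (hab : a < b) (hcd : c < d)
    (hT : ∀ t ∈ T, t ∉ Rsq a b c d → b ≤ t.1 ∨ Off a b c d t) (hAT : A ⊆ Bd e T)
    (hBT : B ⊆ Bd e T) (hA : A ⊆ Vs e a c d) (hB : ∀ z ∈ B, OffS a b c d z) :
    VT Q e T A B * VT Q e (Rsq a b c d) (Hs e c a b) (Hs e d a b) ≤
        VT Q e (Rsq a b c d ∪ T) (Hs e c a b) B ∧
      VT Q e T A B * VT Q e (Rsq a b c d) (Hs e c a b) (Hs e d a b) ≤
        VT Q e (Rsq a b c d ∪ T) (Hs e d a b) B := by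
  refine turn hQ hQ1 (quad_V e hab.le hcd.le) (fan_rect _ _ _ _ _)
    (bd_bot fun t ht => (mem_Rsq.1 ht).2.2.1) (bd_top fun t ht => (mem_Rsq.1 ht).2.2.2) hAT
    (fun y hy => ?_) (fun t ht ht' y hy hyR => ?_) hBT
    (fun z hz hzR => absurd hzR fun h => offs_no (hB z hz) h)
  · obtain ⟨y1, y2, y3, y4⟩ := hA hy
    exact nx_left hab hcd y1 y2 y3 y4
  · rcases hT t ht ht' with h | h
    · obtain ⟨r1, r2, r3, r4, r5⟩ := vc_rect hyR
      obtain ⟨c1, c2, c3⟩ := hy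
      exact nx_right hab hcd (by omega) r3 r4 r5
    · exact (off_no h hy hyR).elim

/-- `T` starts on the top side of the rectangle and leaves it on the bottom side. -/
theorem tu_HB (hQ : 0 < Q) (hQ1 : Q ≤ 1) (hab : a < b) (hcd : c < d)
    (hT : ∀ t ∈ T, t ∉ Rsq a b c d → t.2 < c ∨ Off a b c d t) (hAT : A ⊆ Bd e T)
    (hBT : B ⊆ Bd e T) (hA : A ⊆ Hs e d a b) (hB : ∀ z ∈ B, OffS a b c d z) :
    VT Q e T A B * VT Q e (Rsq a b c d) (Vs e a c d) (Vs e b c d) ≤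
        VT Q e (Rsq a b c d ∪ T) (Vs e a c d) B ∧
      VT Q e T A B * VT Q e (Rsq a b c d) (Vs e a c d) (Vs e b c d) ≤
        VT Q e (Rsq a b c d ∪ T) (Vs e b c d) B := by
  refine turn hQ hQ1 (quad_H e hab.le hcd.le).swap24 (fan_rect _ _ _ _ _)
    (bd_left fun t ht => (mem_Rsq.1 ht).1) (bd_right fun t ht => (mem_Rsq.1 ht).2.1) hAT
    (fun y hy => ?_) (fun t ht ht' y hy hyR => ?_) hBT
    (fun z hz hzR => absurd hzR fun h => offs_no (hB z hz) h)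
  · obtain ⟨y1, y2, y3, y4⟩ := hA hy
    exact nx_top hab hcd y1 y2 y3 y4
  · rcases hT t ht ht' with h | h
    · obtain ⟨r1, r2, r3, r4, r5⟩ := vc_rect hyR
      obtain ⟨c1, c2, c3⟩ := hy
      exact nx_bot hab hcd (by omega) r1 r2 r5
    · exact (off_no h hy hyR).elim

/-- `T` starts on the bottom side of the rectangle and leaves it on the top side. -/
theorem tu_HT (hQ : 0 < Q) (hQ1 : Q ≤ 1) (hab : a < b) (hcd : c < d)
    (hT : ∀ t ∈ T, t ∉ Rsq a b c d → d ≤ t.2 ∨ Off a b c d t) (hAT : A ⊆ Bd e T)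
    (hBT : B ⊆ Bd e T) (hA : A ⊆ Hs e c a b) (hB : ∀ z ∈ B, OffS a b c d z) :
    VT Q e T A B * VT Q e (Rsq a b c d) (Vs e a c d) (Vs e b c d) ≤
        VT Q e (Rsq a b c d ∪ T) (Vs e a c d) B ∧
      VT Q e T A B * VT Q e (Rsq a b c d) (Vs e a c d) (Vs e b c d) ≤
        VT Q e (Rsq a b c d ∪ T) (Vs e b c d) B := by
  refine turn hQ hQ1 (quad_H e hab.le hcd.le) (fan_rect _ _ _ _ _)
    (bd_left fun t ht => (mem_Rsq.1 ht).1) (bd_right fun t ht => (mem_Rsq.1 ht).2.1) hAT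
    (fun y hy => ?_) (fun t ht ht' y hy hyR => ?_) hBT
    (fun z hz hzR => absurd hzR fun h => offs_no (hB z hz) h)
  · obtain ⟨y1, y2, y3, y4⟩ := hA hy
    exact nx_bot hab hcd y1 y2 y3 y4
  · rcases hT t ht ht' with h | h
    · obtain ⟨r1, r2, r3, r4, r5⟩ := vc_rect hyR
      obtain ⟨c1, c2, c3⟩ := hy
      exact nx_top hab hcd (by omega) r1 r2 r5
    · exact (off_no h hy hyR).elim

/-! ### The two tubes

Coordinates relative to `(x, y)`, unit `u`; the target is the bottom side of the rectangle over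
`[x + l, x + l + 8 u]`. -/

variable {x y l u : ℤ}

/-- The tube to the right. -/
noncomputable def TR (x y l u : ℤ) : Finset Pt :=
  Rsq (x - 6 * u) (x - 4 * u) y (y + 7 * u) ∪ (Rsq (x - 6 * u) (x + 6 * u) (y + 5 * u) (y + 7 * u) ∪
    (Rsq (x + 4 * u) (x + 6 * u) (y + u) (y + 7 * u) ∪
      (Rsq (x + 4 * u) (x + l + 8 * u) (y + u) (y + 3 * u) ∪
        Rsq (x + l) (x + l + 8 * u) y (y + 3 * u))))

/-- The tube around the left side. -/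
noncomputable def TL (x y l u : ℤ) : Finset Pt :=
  Rsq (x + 4 * u) (x + 6 * u) y (y + 7 * u) ∪ (Rsq (x - 6 * u) (x + 6 * u) (y + 5 * u) (y + 7 * u) ∪
    (Rsq (x - 6 * u) (x - 4 * u) (y + u) (y + 7 * u) ∪
      (Rsq (x - 12 * u) (x - 4 * u) (y + u) (y + 3 * u) ∪
        (Rsq (x - 12 * u) (x - 10 * u) (y + u) (y + 12 * u) ∪
          (Rsq (x - 12 * u) (x + l + 8 * u) (y + 10 * u) (y + 12 * u) ∪
            Rsq (x + l) (x + l + 8 * u) y (y + 12 * u))))))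

/-- Length against width. -/
theorem asp {M : ℕ} {X L w : ℤ} (h : L ≤ M * u) (h2 : X ≤ L) (hw : u ≤ w) : X ≤ M * w := by
  have : (M : ℤ) * u ≤ M * w := mul_le_mul_of_nonneg_left hw (Int.natCast_nonneg M)
  linarith

/-- The chain of the five rectangles. -/
theorem VT_TR (hQ : 0 < Q) (hQ1 : Q ≤ 1) (hV : VRS Q) (M : ℕ) : ∃ κ : ℝ, 0 < κ ∧
    κ ≤ 1 ∧ ∀ (e : Bool) (x y l u : ℤ), 1 ≤ u → 20 * u ≤ l → l + 24 * u ≤ M * u →
      κ ≤ VT Q e (TR x y l u) (Hs e y (x - 6 * u) (x - 4 * u)) (Hs e y (x + l) (x + l + 8 * u)) := by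
  obtain ⟨k, hk0, hk1, hk⟩ := hV M
  refine ⟨k ^ 5, by positivity, pow_le_one₀ hk0.le hk1, fun e x y l u hu hl hlM => ?_⟩
  obtain ⟨B, hB⟩ : ∃ B, B = Hs e y (x + l) (x + l + 8 * u) := ⟨_, rfl⟩
  rw [← hB]
  have mB : ∀ z ∈ B, z.2 = y ∧ x + l ≤ z.1 ∧ z.1 ≤ x + l + 8 * u := fun z hz => by
    rw [hB] at hz
    exact ⟨hz.1, hz.2.1, hz.2.2.1⟩
  have bB : ∀ T : Finset Pt, (∀ t ∈ T, y ≤ t.2) → B ⊆ Bd e T := fun T hT => by
    rw [hB]
    exact bd_bot hT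
  have mul2 : ∀ {p q r s : ℝ}, p ≤ r → q ≤ s → 0 ≤ q → 0 ≤ r → p * q ≤ r * s :=
    fun h1 h2 h3 h4 => mul_le_mul h1 h2 h3 h4
  -- the last rectangle
  have v5 : k ≤ VT Q e (Rsq (x + l) (x + l + 8 * u) y (y + 3 * u))
      (Hs e (y + 3 * u) (x + l) (x + l + 8 * u)) B := by
    have := (hk e (x + l) (x + l + 8 * u) y (y + 3 * u) (by omega) (by omega)).2
      (asp hlM (by omega) (by omega))
    rw [VT_comm hQ, hB]
    exact this
  obtain ⟨T5, hT5⟩ : ∃ T5, T5 = Rsq (x + l) (x + l + 8 * u) y (y + 3 * u) := ⟨_, rfl⟩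
  have m5 : ∀ t, t ∈ T5 ↔ x + l ≤ t.1 ∧ t.1 < x + l + 8 * u ∧ y ≤ t.2 ∧ t.2 < y + 3 * u :=
    fun t => by rw [hT5]; exact mem_Rsq
  rw [← hT5] at v5
  -- the strip
  have c4 := (hk e (x + 4 * u) (x + l + 8 * u) (y + u) (y + 3 * u) (by omega) (by omega)).1
    (asp hlM (by omega) (by omega))
  have t4 := (tu_HB (e := e) (T := T5) (a := x + 4 * u) (b := x + l + 8 * u) (c := y + u)
    (d := y + 3 * u) (A := Hs e (y + 3 * u) (x + l) (x + l + 8 * u)) (B := B) hQ hQ1 (by omega)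
    (by omega) (fun t ht ht' => by
      rw [m5] at ht
      rw [mem_Rsq] at ht'
      left; omega) (bd_top fun t ht => ((m5 t).1 ht).2.2.2) (bB _ fun t ht => ((m5 t).1 ht).2.2.1)
    (fun z hz => ⟨hz.1, by have := hz.2.1; omega, hz.2.2.1, hz.2.2.2⟩)
    (fun z hz => by have := mB z hz; unfold OffS; omega)).1
  obtain ⟨T4, hT4⟩ : ∃ T4, T4 = Rsq (x + 4 * u) (x + l + 8 * u) (y + u) (y + 3 * u) ∪ T5 :=
    ⟨_, rfl⟩
  have m4 : ∀ t, t ∈ T4 ↔ (x + 4 * u ≤ t.1 ∧ t.1 < x + l + 8 * u ∧ y + u ≤ t.2 ∧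
      t.2 < y + 3 * u) ∨ (x + l ≤ t.1 ∧ t.1 < x + l + 8 * u ∧ y ≤ t.2 ∧ t.2 < y + 3 * u) :=
    fun t => by rw [hT4, mem_union, mem_Rsq, m5]
  rw [← hT4] at t4
  have v4 := (mul2 v5 c4 hk0.le (VT_nonneg hQ _ _ _ _)).trans t4
  -- the right leg
  have c3 := (hk e (x + 4 * u) (x + 6 * u) (y + u) (y + 7 * u) (by omega) (by omega)).2
    (asp hlM (by omega) (by omega))
  have t3 := (tu_VR (e := e) (T := T4) (a := x + 4 * u) (b := x + 6 * u) (c := y + u)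
    (d := y + 7 * u) (A := Vs e (x + 4 * u) (y + u) (y + 3 * u)) (B := B) hQ hQ1 (by omega)
    (by omega) (fun t ht ht' => by
      rw [m4] at ht
      rw [mem_Rsq] at ht'
      left; omega) (bd_left fun t ht => by rw [m4] at ht; omega)
    (bB _ fun t ht => by rw [m4] at ht; omega)
    (fun z hz => ⟨hz.1, hz.2.1, by have := hz.2.2.1; omega, hz.2.2.2⟩)
    (fun z hz => by have := mB z hz; unfold OffS; omega)).2
  obtain ⟨T3, hT3⟩ : ∃ T3, T3 = Rsq (x + 4 * u) (x + 6 * u) (y + u) (y + 7 * u) ∪ T4 := ⟨_, rfl⟩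
  have m3 : ∀ t, t ∈ T3 ↔ (x + 4 * u ≤ t.1 ∧ t.1 < x + 6 * u ∧ y + u ≤ t.2 ∧ t.2 < y + 7 * u) ∨
      (x + 4 * u ≤ t.1 ∧ t.1 < x + l + 8 * u ∧ y + u ≤ t.2 ∧ t.2 < y + 3 * u) ∨
      (x + l ≤ t.1 ∧ t.1 < x + l + 8 * u ∧ y ≤ t.2 ∧ t.2 < y + 3 * u) :=
    fun t => by rw [hT3, mem_union, mem_Rsq, m4]
  rw [← hT3] at t3
  have v3 := (mul2 v4 c3 hk0.le (VT_nonneg hQ _ _ _ _)).trans t3
  -- the bar
  have c2 := (hk e (x - 6 * u) (x + 6 * u) (y + 5 * u) (y + 7 * u) (by omega) (by omega)).1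
    (asp hlM (by omega) (by omega))
  have t2 := (tu_HB (e := e) (T := T3) (a := x - 6 * u) (b := x + 6 * u) (c := y + 5 * u)
    (d := y + 7 * u) (A := Hs e (y + 7 * u) (x + 4 * u) (x + 6 * u)) (B := B) hQ hQ1 (by omega)
    (by omega) (fun t ht ht' => by
      rw [m3] at ht
      rw [mem_Rsq] at ht'
      left; omega) (bd_top fun t ht => by rw [m3] at ht; omega)
    (bB _ fun t ht => by rw [m3] at ht; omega)
    (fun z hz => ⟨hz.1, by have := hz.2.1; omega, hz.2.2.1, hz.2.2.2⟩)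
    (fun z hz => by have := mB z hz; unfold OffS; omega)).1
  obtain ⟨T2, hT2⟩ : ∃ T2, T2 = Rsq (x - 6 * u) (x + 6 * u) (y + 5 * u) (y + 7 * u) ∪ T3 :=
    ⟨_, rfl⟩
  have m2 : ∀ t, t ∈ T2 ↔ (x - 6 * u ≤ t.1 ∧ t.1 < x + 6 * u ∧ y + 5 * u ≤ t.2 ∧
      t.2 < y + 7 * u) ∨ (x + 4 * u ≤ t.1 ∧ t.1 < x + 6 * u ∧ y + u ≤ t.2 ∧ t.2 < y + 7 * u) ∨
      (x + 4 * u ≤ t.1 ∧ t.1 < x + l + 8 * u ∧ y + u ≤ t.2 ∧ t.2 < y + 3 * u) ∨
      (x + l ≤ t.1 ∧ t.1 < x + l + 8 * u ∧ y ≤ t.2 ∧ t.2 < y + 3 * u) :=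
    fun t => by rw [hT2, mem_union, mem_Rsq, m3]
  rw [← hT2] at t2
  have v2 := (mul2 v3 c2 hk0.le (VT_nonneg hQ _ _ _ _)).trans t2
  -- the left leg
  have c1 := (hk e (x - 6 * u) (x - 4 * u) y (y + 7 * u) (by omega) (by omega)).2
    (asp hlM (by omega) (by omega))
  have t1 := (tu_VR (e := e) (T := T2) (a := x - 6 * u) (b := x - 4 * u) (c := y)
    (d := y + 7 * u) (A := Vs e (x - 6 * u) (y + 5 * u) (y + 7 * u)) (B := B) hQ hQ1 (by omega)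
    (by omega) (fun t ht ht' => by
      rw [m2] at ht
      rw [mem_Rsq] at ht'
      left; omega) (bd_left fun t ht => by rw [m2] at ht; omega)
    (bB _ fun t ht => by rw [m2] at ht; omega)
    (fun z hz => ⟨hz.1, by have := hz.2.1; omega, hz.2.2.1, hz.2.2.2⟩)
    (fun z hz => by have := mB z hz; unfold OffS; omega)).1
  have v1 := (mul2 v2 c1 hk0.le (VT_nonneg hQ _ _ _ _)).trans t1
  have eT : TR x y l u = Rsq (x - 6 * u) (x - 4 * u) y (y + 7 * u) ∪ T2 := by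
    rw [hT2, hT3, hT4, hT5]
    rfl
  rw [eT]
  refine le_trans (le_of_eq ?_) v1
  ring

/-- The chain of the seven rectangles. -/
theorem VT_TL (hQ : 0 < Q) (hQ1 : Q ≤ 1) (hV : VRS Q) (M : ℕ) : ∃ κ : ℝ, 0 < κ ∧
    κ ≤ 1 ∧ ∀ (e : Bool) (x y l u : ℤ), 2 ≤ u → 20 * u ≤ l → l + 24 * u ≤ M * u →
      κ ≤ VT Q e (TL x y l u) (Hs e y (x + 4 * u) (x + 6 * u)) (Hs e y (x + l) (x + l + 8 * u)) := by
  obtain ⟨k, hk0, hk1, hk⟩ := hV M
  refine ⟨k ^ 7, by positivity, pow_le_one₀ hk0.le hk1, fun e x y l u hu hl hlM => ?_⟩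
  obtain ⟨B, hB⟩ : ∃ B, B = Hs e y (x + l) (x + l + 8 * u) := ⟨_, rfl⟩
  rw [← hB]
  have mB : ∀ z ∈ B, z.2 = y ∧ x + l ≤ z.1 ∧ z.1 ≤ x + l + 8 * u := fun z hz => by
    rw [hB] at hz
    exact ⟨hz.1, hz.2.1, hz.2.2.1⟩
  have bB : ∀ T : Finset Pt, (∀ t ∈ T, y ≤ t.2) → B ⊆ Bd e T := fun T hT => by
    rw [hB]
    exact bd_bot hT
  have mul2 : ∀ {p q r s : ℝ}, p ≤ r → q ≤ s → 0 ≤ q → 0 ≤ r → p * q ≤ r * s :=
    fun h1 h2 h3 h4 => mul_le_mul h1 h2 h3 h4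
  -- the last rectangle
  have v7 : k ≤ VT Q e (Rsq (x + l) (x + l + 8 * u) y (y + 12 * u))
      (Hs e (y + 12 * u) (x + l) (x + l + 8 * u)) B := by
    have := (hk e (x + l) (x + l + 8 * u) y (y + 12 * u) (by omega) (by omega)).2
      (asp hlM (by omega) (by omega))
    rw [VT_comm hQ, hB]
    exact this
  obtain ⟨T7, hT7⟩ : ∃ T7, T7 = Rsq (x + l) (x + l + 8 * u) y (y + 12 * u) := ⟨_, rfl⟩
  have m7 : ∀ t, t ∈ T7 ↔ x + l ≤ t.1 ∧ t.1 < x + l + 8 * u ∧ y ≤ t.2 ∧ t.2 < y + 12 * u :=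
    fun t => by rw [hT7]; exact mem_Rsq
  rw [← hT7] at v7
  -- the upper strip
  have c6 := (hk e (x - 12 * u) (x + l + 8 * u) (y + 10 * u) (y + 12 * u) (by omega) (by omega)).1
    (asp hlM (by omega) (by omega))
  have t6 := (tu_HB (e := e) (T := T7) (a := x - 12 * u) (b := x + l + 8 * u) (c := y + 10 * u)
    (d := y + 12 * u) (A := Hs e (y + 12 * u) (x + l) (x + l + 8 * u)) (B := B) hQ hQ1 (by omega)
    (by omega) (fun t ht ht' => by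
      rw [m7] at ht
      rw [mem_Rsq] at ht'
      left; omega) (bd_top fun t ht => ((m7 t).1 ht).2.2.2) (bB _ fun t ht => ((m7 t).1 ht).2.2.1)
    (fun z hz => ⟨hz.1, by have := hz.2.1; omega, hz.2.2.1, hz.2.2.2⟩)
    (fun z hz => by have := mB z hz; unfold OffS; omega)).1
  obtain ⟨T6, hT6⟩ : ∃ T6, T6 = Rsq (x - 12 * u) (x + l + 8 * u) (y + 10 * u) (y + 12 * u) ∪ T7 :=
    ⟨_, rfl⟩
  have m6 : ∀ t, t ∈ T6 ↔ (x - 12 * u ≤ t.1 ∧ t.1 < x + l + 8 * u ∧ y + 10 * u ≤ t.2 ∧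
      t.2 < y + 12 * u) ∨ (x + l ≤ t.1 ∧ t.1 < x + l + 8 * u ∧ y ≤ t.2 ∧ t.2 < y + 12 * u) :=
    fun t => by rw [hT6, mem_union, mem_Rsq, m7]
  rw [← hT6] at t6
  have v6 := (mul2 v7 c6 hk0.le (VT_nonneg hQ _ _ _ _)).trans t6
  -- the outer leg
  have c5 := (hk e (x - 12 * u) (x - 10 * u) (y + u) (y + 12 * u) (by omega) (by omega)).2
    (asp hlM (by omega) (by omega))
  have t5 := (tu_VR (e := e) (T := T6) (a := x - 12 * u) (b := x - 10 * u) (c := y + u)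
    (d := y + 12 * u) (A := Vs e (x - 12 * u) (y + 10 * u) (y + 12 * u)) (B := B) hQ hQ1
    (by omega) (by omega) (fun t ht ht' => by
      rw [m6] at ht
      rw [mem_Rsq] at ht'
      left; omega) (bd_left fun t ht => by rw [m6] at ht; omega)
    (bB _ fun t ht => by rw [m6] at ht; omega)
    (fun z hz => ⟨hz.1, by have := hz.2.1; omega, hz.2.2.1, hz.2.2.2⟩)
    (fun z hz => by have := mB z hz; unfold OffS; omega)).1
  obtain ⟨T5, hT5⟩ : ∃ T5, T5 = Rsq (x - 12 * u) (x - 10 * u) (y + u) (y + 12 * u) ∪ T6 :=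
    ⟨_, rfl⟩
  have m5 : ∀ t, t ∈ T5 ↔ (x - 12 * u ≤ t.1 ∧ t.1 < x - 10 * u ∧ y + u ≤ t.2 ∧
      t.2 < y + 12 * u) ∨ (x - 12 * u ≤ t.1 ∧ t.1 < x + l + 8 * u ∧ y + 10 * u ≤ t.2 ∧
      t.2 < y + 12 * u) ∨ (x + l ≤ t.1 ∧ t.1 < x + l + 8 * u ∧ y ≤ t.2 ∧ t.2 < y + 12 * u) :=
    fun t => by rw [hT5, mem_union, mem_Rsq, m6]
  rw [← hT5] at t5
  have v5 := (mul2 v6 c5 hk0.le (VT_nonneg hQ _ _ _ _)).trans t5
  -- the lower strip
  have c4 := (hk e (x - 12 * u) (x - 4 * u) (y + u) (y + 3 * u) (by omega) (by omega)).1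
    (asp hlM (by omega) (by omega))
  have t4 := (tu_HT (e := e) (T := T5) (a := x - 12 * u) (b := x - 4 * u) (c := y + u)
    (d := y + 3 * u) (A := Hs e (y + u) (x - 12 * u) (x - 10 * u)) (B := B) hQ hQ1
    (by omega) (by omega) (fun t ht ht' => by
      rw [m5] at ht
      rw [mem_Rsq] at ht'
      unfold Off
      omega) (fun z hz => ⟨(z.1, z.2 - 1), by
        rw [m5]
        have := hz.1
        have := hz.2.1
        have := hz.2.2.1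
        dsimp only
        omega, by unfold Cor; dsimp only; have := hz.2.2.2; omega⟩)
    (bB _ fun t ht => by rw [m5] at ht; omega)
    (fun z hz => ⟨hz.1, hz.2.1, by have := hz.2.2.1; omega, hz.2.2.2⟩)
    (fun z hz => by have := mB z hz; unfold OffS; omega)).2
  obtain ⟨T4, hT4⟩ : ∃ T4, T4 = Rsq (x - 12 * u) (x - 4 * u) (y + u) (y + 3 * u) ∪ T5 :=
    ⟨_, rfl⟩
  have m4 : ∀ t, t ∈ T4 ↔ (x - 12 * u ≤ t.1 ∧ t.1 < x - 4 * u ∧ y + u ≤ t.2 ∧ t.2 < y + 3 * u) ∨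
      (x - 12 * u ≤ t.1 ∧ t.1 < x - 10 * u ∧ y + u ≤ t.2 ∧ t.2 < y + 12 * u) ∨
      (x - 12 * u ≤ t.1 ∧ t.1 < x + l + 8 * u ∧ y + 10 * u ≤ t.2 ∧ t.2 < y + 12 * u) ∨
      (x + l ≤ t.1 ∧ t.1 < x + l + 8 * u ∧ y ≤ t.2 ∧ t.2 < y + 12 * u) :=
    fun t => by rw [hT4, mem_union, mem_Rsq, m5]
  rw [← hT4] at t4
  have v4 := (mul2 v5 c4 hk0.le (VT_nonneg hQ _ _ _ _)).trans t4
  -- the inner leg
  have c3 := (hk e (x - 6 * u) (x - 4 * u) (y + u) (y + 7 * u) (by omega) (by omega)).2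
    (asp hlM (by omega) (by omega))
  have t3 := (tu_VL (e := e) (T := T4) (a := x - 6 * u) (b := x - 4 * u) (c := y + u)
    (d := y + 7 * u) (A := Vs e (x - 4 * u) (y + u) (y + 3 * u)) (B := B) hQ hQ1
    (by omega) (by omega) (fun t ht ht' => by
      rw [m4] at ht
      rw [mem_Rsq] at ht'
      unfold Off
      omega) (fun z hz => ⟨z, by
        rw [m4]
        have := hz.1
        have := hz.2.1
        have := hz.2.2.1
        omega, by unfold Cor; have := hz.2.2.2; omega⟩)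
    (bB _ fun t ht => by rw [m4] at ht; omega)
    (fun z hz => ⟨hz.1, hz.2.1, by have := hz.2.2.1; omega, hz.2.2.2⟩)
    (fun z hz => by have := mB z hz; unfold OffS; omega)).2
  obtain ⟨T3, hT3⟩ : ∃ T3, T3 = Rsq (x - 6 * u) (x - 4 * u) (y + u) (y + 7 * u) ∪ T4 :=
    ⟨_, rfl⟩
  have m3 : ∀ t, t ∈ T3 ↔ (x - 6 * u ≤ t.1 ∧ t.1 < x - 4 * u ∧ y + u ≤ t.2 ∧ t.2 < y + 7 * u) ∨
      (x - 12 * u ≤ t.1 ∧ t.1 < x - 4 * u ∧ y + u ≤ t.2 ∧ t.2 < y + 3 * u) ∨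
      (x - 12 * u ≤ t.1 ∧ t.1 < x - 10 * u ∧ y + u ≤ t.2 ∧ t.2 < y + 12 * u) ∨
      (x - 12 * u ≤ t.1 ∧ t.1 < x + l + 8 * u ∧ y + 10 * u ≤ t.2 ∧ t.2 < y + 12 * u) ∨
      (x + l ≤ t.1 ∧ t.1 < x + l + 8 * u ∧ y ≤ t.2 ∧ t.2 < y + 12 * u) :=
    fun t => by rw [hT3, mem_union, mem_Rsq, m4]
  rw [← hT3] at t3
  have v3 := (mul2 v4 c3 hk0.le (VT_nonneg hQ _ _ _ _)).trans t3
  -- the bar
  have c2 := (hk e (x - 6 * u) (x + 6 * u) (y + 5 * u) (y + 7 * u) (by omega) (by omega)).1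
    (asp hlM (by omega) (by omega))
  have t2 := (tu_HB (e := e) (T := T3) (a := x - 6 * u) (b := x + 6 * u) (c := y + 5 * u)
    (d := y + 7 * u) (A := Hs e (y + 7 * u) (x - 6 * u) (x - 4 * u)) (B := B) hQ hQ1
    (by omega) (by omega) (fun t ht ht' => by
      rw [m3] at ht
      rw [mem_Rsq] at ht'
      unfold Off
      omega) (fun z hz => ⟨z, by
        rw [m3]
        have := hz.1
        have := hz.2.1
        have := hz.2.2.1
        omega, by unfold Cor; have := hz.2.2.2; omega⟩)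
    (bB _ fun t ht => by rw [m3] at ht; omega)
    (fun z hz => ⟨hz.1, hz.2.1, by have := hz.2.2.1; omega, hz.2.2.2⟩)
    (fun z hz => by have := mB z hz; unfold OffS; omega)).2
  obtain ⟨T2, hT2⟩ : ∃ T2, T2 = Rsq (x - 6 * u) (x + 6 * u) (y + 5 * u) (y + 7 * u) ∪ T3 :=
    ⟨_, rfl⟩
  have m2 : ∀ t, t ∈ T2 ↔ (x - 6 * u ≤ t.1 ∧ t.1 < x + 6 * u ∧ y + 5 * u ≤ t.2 ∧
      t.2 < y + 7 * u) ∨ (x - 6 * u ≤ t.1 ∧ t.1 < x - 4 * u ∧ y + u ≤ t.2 ∧ t.2 < y + 7 * u) ∨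
      (x - 12 * u ≤ t.1 ∧ t.1 < x - 4 * u ∧ y + u ≤ t.2 ∧ t.2 < y + 3 * u) ∨
      (x - 12 * u ≤ t.1 ∧ t.1 < x - 10 * u ∧ y + u ≤ t.2 ∧ t.2 < y + 12 * u) ∨
      (x - 12 * u ≤ t.1 ∧ t.1 < x + l + 8 * u ∧ y + 10 * u ≤ t.2 ∧ t.2 < y + 12 * u) ∨
      (x + l ≤ t.1 ∧ t.1 < x + l + 8 * u ∧ y ≤ t.2 ∧ t.2 < y + 12 * u) :=
    fun t => by rw [hT2, mem_union, mem_Rsq, m3]
  rw [← hT2] at t2
  have v2 := (mul2 v3 c2 hk0.le (VT_nonneg hQ _ _ _ _)).trans t2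
  -- the right leg
  have c1 := (hk e (x + 4 * u) (x + 6 * u) y (y + 7 * u) (by omega) (by omega)).2
    (asp hlM (by omega) (by omega))
  have t1 := (tu_VL (e := e) (T := T2) (a := x + 4 * u) (b := x + 6 * u) (c := y)
    (d := y + 7 * u) (A := Vs e (x + 6 * u) (y + 5 * u) (y + 7 * u)) (B := B) hQ hQ1
    (by omega) (by omega) (fun t ht ht' => by
      rw [m2] at ht
      rw [mem_Rsq] at ht'
      unfold Off
      omega) (fun z hz => ⟨z, by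
        rw [m2]
        have := hz.1
        have := hz.2.1
        have := hz.2.2.1
        omega, by unfold Cor; have := hz.2.2.2; omega⟩)
    (bB _ fun t ht => by rw [m2] at ht; omega)
    (fun z hz => ⟨hz.1, by have := hz.2.1; omega, hz.2.2.1, hz.2.2.2⟩)
    (fun z hz => by have := mB z hz; unfold OffS; omega)).1
  have v1 := (mul2 v2 c1 hk0.le (VT_nonneg hQ _ _ _ _)).trans t1
  have eT : TL x y l u = Rsq (x + 4 * u) (x + 6 * u) y (y + 7 * u) ∪ T2 := by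
    rw [hT2, hT3, hT4, hT5, hT6, hT7]
    rfl
  rw [eT]
  refine le_trans (le_of_eq ?_) v1
  ring

end Vale.Agent.P167.H922
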