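import Vale.Agent.P167.N.NET.Net
import Vale.Agent.P167.N.NET.QuadP
import Vale.Agent.P167.H947.Q.Pf3
import Vale.Agent.P167.H718.Par3
import Vale.Agent.P167.H922.LbLoc
import Vale.Agent.P167.H922.LbTube

/-!
# P167, `0 < q < 4`, [GEO]: the half box as a quad

`quadR`, `quadL`: the half box `HBt t m` with the first arc `{t}`; the tube starts on the left (right)
ray and leaves the half box through the lower part (up to the height `h`) of the right (left) side.
-/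

set_option autoImplicit false

namespace Vale.Agent.P167.H922

open Finset Vale.Agent.P167 Vale.Agent.P167.FK Vale.Agent.P167.H816 Vale.Agent.P167.H262
  Vale.Agent.P167.H632 Vale.Agent.P167.H871 Vale.Agent.P167.H192.TA Vale.Agent.P167.N.NET
open Vale.Agent.P167.E6 (IsPolygon Encloses)
open Vale.Agent.P167.H364 (HBt ArmT)
open Vale.Agent.P145.FB (PStep PConn)
open Relation (ReflTransGen)

variable {t : ℤ × ℤ} {m h : ℕ}

/-- The polygon of the half box. -/
def pq (t : ℤ × ℤ) (m : ℕ) : ZMod (H947.Q.rN m m m) → ℤ × ℤ := fun i => H947.Q.rq m m m i + t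

theorem pq_poly (hm : 0 < m) : IsPolygon (pq t m) := H718.poly_add (H947.Q.isPolygon_rq hm hm hm) t

theorem pq_encl (hm : 0 < m) : Encloses (pq t m) (HBt t m) := by
  have h := H718.encl_add (H947.Q.encloses_rq hm hm hm) t
  have e : (H947.Q.Rt (-(m : ℤ)) m m).image (· + t) = HBt t m := by
    ext v
    rw [mem_image, mem_HBt]
    constructor
    · rintro ⟨w, hw, rfl⟩
      rw [H947.Q.mem_Rt] at hw
      simp only [Prod.fst_add, Prod.snd_add]
      omega
    · intro hv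
      refine ⟨v - t, ?_, by simp⟩
      rw [H947.Q.mem_Rt]
      simp only [Prod.fst_sub, Prod.snd_sub]
      omega
  rw [e] at h
  exact h

theorem pq_nat (hm : 0 < m) {k : ℕ} (hk : k ≤ 6 * m) :
    pq t m (k : ZMod (H947.Q.rN m m m)) = H947.Q.rp m m m k + t := by
  unfold pq
  rw [H947.Q.rq_nat hm (by unfold H947.Q.rN; omega)]

theorem arc_of (hm : 0 < m) {e : Bool} {i j k : ℕ} {x : ℤ × ℤ} (hp : (x.1 + x.2) % 2 = pr e)
    (hk : k ≤ 6 * m) (h1 : i ≤ k) (h2 : k ≤ j) (h3 : x.1 = (H947.Q.rp m m m k).1 + t.1)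
    (h4 : x.2 = (H947.Q.rp m m m k).2 + t.2) : x ∈ arcQ e (pq t m) i j :=
  ⟨k, h1, h2, by rw [pq_nat hm hk]; exact Prod.ext h3 h4, hp⟩

/-- Sites of the bottom side to the right of `t`. -/
theorem arc_br (hm : 0 < m) {e : Bool} {x : ℤ × ℤ} (hp : (x.1 + x.2) % 2 = pr e) {j : ℕ}
    (h1 : t.1 ≤ x.1) (h2 : x.1 ≤ t.1 + m) (h3 : x.1 ≤ t.1 + j) (h4 : x.2 = t.2) :
    x ∈ arcQ e (pq t m) 0 j := by
  obtain ⟨k, hk⟩ := Int.eq_ofNat_of_zero_le (a := x.1 - t.1) (by omega)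
  have s := H947.Q.rp_spec m m m k
  exact arc_of hm hp (k := k) (by omega) (by omega) (by omega) (by omega) (by omega)

/-- Sites of the bottom side to the left of `t`. -/
theorem arc_bl (hm : 0 < m) {e : Bool} {x : ℤ × ℤ} (hp : (x.1 + x.2) % 2 = pr e) {i : ℕ}
    (hi : i ≤ 5 * m) (h1 : x.1 ≤ t.1) (h2 : t.1 - m ≤ x.1) (h4 : x.2 = t.2) :
    x ∈ arcQ e (pq t m) i (0 + H947.Q.rN m m m) := by
  obtain ⟨k, hk⟩ := Int.eq_ofNat_of_zero_le (a := 6 * m + (x.1 - t.1)) (by omega)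
  have s := H947.Q.rp_spec m m m k
  have e : H947.Q.rN m m m = 6 * m := by unfold H947.Q.rN; ring
  exact arc_of hm hp (k := k) (by omega) (by omega) (by omega) (by omega) (by omega)

/-- Sites of the right side. -/
theorem arc_r (hm : 0 < m) {e : Bool} {x : ℤ × ℤ} (hp : (x.1 + x.2) % 2 = pr e) {i j : ℕ}
    (h1 : x.1 = t.1 + m) (h2 : t.2 ≤ x.2) (h3 : x.2 ≤ t.2 + m) (h4 : (i : ℤ) ≤ m + (x.2 - t.2))
    (h5 : m + (x.2 - t.2) ≤ j) : x ∈ arcQ e (pq t m) i j := by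
  obtain ⟨k, hk⟩ := Int.eq_ofNat_of_zero_le (a := m + (x.2 - t.2)) (by omega)
  have s := H947.Q.rp_spec m m m k
  exact arc_of hm hp (k := k) (by omega) (by omega) (by omega) (by omega) (by omega)

/-- Sites of the top side. -/
theorem arc_t (hm : 0 < m) {e : Bool} {x : ℤ × ℤ} (hp : (x.1 + x.2) % 2 = pr e) {i j : ℕ}
    (h1 : x.2 = t.2 + m) (h2 : t.1 - m ≤ x.1) (h3 : x.1 ≤ t.1 + m)
    (h4 : (i : ℤ) ≤ 3 * m - (x.1 - t.1)) (h5 : 3 * m - (x.1 - t.1) ≤ j) :
    x ∈ arcQ e (pq t m) i j := by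
  obtain ⟨k, hk⟩ := Int.eq_ofNat_of_zero_le (a := 3 * m - (x.1 - t.1)) (by omega)
  have s := H947.Q.rp_spec m m m k
  exact arc_of hm hp (k := k) (by omega) (by omega) (by omega) (by omega) (by omega)

/-- Sites of the left side. -/
theorem arc_l (hm : 0 < m) {e : Bool} {x : ℤ × ℤ} (hp : (x.1 + x.2) % 2 = pr e) {i j : ℕ}
    (h1 : x.1 = t.1 - m) (h2 : t.2 ≤ x.2) (h3 : x.2 ≤ t.2 + m)
    (h4 : (i : ℤ) ≤ 5 * m - (x.2 - t.2)) (h5 : 5 * m - (x.2 - t.2) ≤ j) :
    x ∈ arcQ e (pq t m) i j := by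
  obtain ⟨k, hk⟩ := Int.eq_ofNat_of_zero_le (a := 5 * m - (x.2 - t.2)) (by omega)
  have s := H947.Q.rp_spec m m m k
  exact arc_of hm hp (k := k) (by omega) (by omega) (by omega) (by omega) (by omega)

/-- The first arc is `{t}`. -/
theorem arc_a (hm : 0 < m) {u : ℤ × ℤ} (hu : u ∈ arcQ true (pq t m) 0 0) : u = t := by
  obtain ⟨k, -, h2, h3, -⟩ := hu
  have hk : k = 0 := by omega
  subst hk
  rw [pq_nat hm (by omega)] at h3
  have s := H947.Q.rp_spec m m m 0
  rw [h3]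
  ext
  · rw [Prod.fst_add]; omega
  · rw [Prod.snd_add]; omega

theorem arc_a' (hm : 0 < m) (ht : Even (t.1 + t.2)) : t ∈ arcQ true (pq t m) 0 0 := by
  rw [Int.even_iff] at ht
  exact arc_br hm (by simpa [pr] using ht) le_rfl (by omega) (by omega) rfl

/-- The quad for the tube which leaves on the right. -/
theorem quadR (hm : 0 < m) (hh : h ≤ m) :
    Quad true ↑(HBt t m) (arcQ true (pq t m) 0 0) (arcQ true (pq t m) (m + h) (5 * m))
      (arcQ false (pq t m) (5 * m) (0 + H947.Q.rN m m m)) (arcQ false (pq t m) 0 (m + h)) := by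
  have := quad_poly (pq_poly (t := t) hm) (pq_encl (t := t) hm) true (i := 0) (j := 0) (k := m + h)
    (l := 5 * m) le_rfl (by omega) (by omega) (by unfold H947.Q.rN; omega)
  exact this.swap24

/-- The quad for the tube which leaves on the left. -/
theorem quadL (hm : 0 < m) (hh : h ≤ m) :
    Quad true ↑(HBt t m) (arcQ true (pq t m) 0 0) (arcQ true (pq t m) m (5 * m - h))
      (arcQ false (pq t m) 0 m) (arcQ false (pq t m) (5 * m - h) (0 + H947.Q.rN m m m)) :=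
  quad_poly (pq_poly (t := t) hm) (pq_encl (t := t) hm) true (i := 0) (j := 0) (k := m)
    (l := 5 * m - h) le_rfl (by omega) (by omega) (by unfold H947.Q.rN; omega)

/-- The sites of a path in the half box. -/
theorem pw_hb {F : Set Pt} {s : ℤ × ℤ} {m : ℤ} (h : Pw (F ∩ ↑(HBt t m)) t s) : s = t ∨
    (t.1 - m ≤ s.1 ∧ s.1 ≤ t.1 + m ∧ t.2 ≤ s.2 ∧ s.2 ≤ t.2 + m) := by
  rcases ReflTransGen.cases_tail h with h | ⟨y, -, h⟩
  · exact Or.inl h
  · right
    obtain ⟨h1, h2, h3⟩ := h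
    have h4 := mem_HBt.1 (mem_coe.1 h3.2)
    dsimp only at h4
    omega

theorem armT_sub (hm : 0 < m) (ht : Even (t.1 + t.2)) (hh : h ≤ m) :
    ArmT t m ⊆ Jn true ↑(HBt t m) (arcQ true (pq t m) 0 0) (arcQ true (pq t m) (m + h) (5 * m)) ∪
      Jn true ↑(HBt t m) (arcQ true (pq t m) 0 0) (arcQ true (pq t m) m (5 * m - h)) := by
  rintro ω ⟨s, hs, hp⟩
  have hp' : Pw (cs true ω ∩ ↑(HBt t m)) t s := by
    refine ReflTransGen.mono (fun a b hab => ⟨hab.1, hab.2.1, ?_⟩) _ _ hp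
    have h1 := hab.2.2
    exact ⟨h1.2, mem_coe.2 h1.1⟩
  have hpar : (s.1 + s.2) % 2 = pr true := by
    have := Pw.parity hp'
    rw [Int.even_iff] at ht
    simp only [pr, if_true]
    omega
  rcases pw_hb hp' with rfl | hr
  · exfalso
    omega
  · by_cases hR : s.1 = t.1 + m
    · right
      exact ⟨t, arc_a' hm ht, s, arc_r hm hpar hR hr.2.2.1 hr.2.2.2 (by omega) (by omega), hp'⟩
    · left
      refine ⟨t, arc_a' hm ht, s, ?_, hp'⟩
      rcases hs with hs | hs | hs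
      · exact arc_l hm hpar hs hr.2.2.1 hr.2.2.2 (by omega) (by omega)
      · exact absurd hs hR
      · exact arc_t hm hpar hs hr.1 hr.2.1 (by omega) (by omega)

end Vale.Agent.P167.H922
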